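import Mathlib

/-!
# The ring of algebraic integers is Bezout; finite groups of matrices over algebraic numbers
are conjugate to groups of matrices of algebraic integers
-/

namespace Vale.Agent.P002.H306

open NumberField Matrix

theorem exists_nf (s : Set ℂ) (hs : s.Finite) (h : ∀ z ∈ s, IsIntegral ℚ z) :
    FiniteDimensional ℚ (IntermediateField.adjoin ℚ s) := by
  have : Finite s := hs
  exact IntermediateField.finiteDimensional_adjoin h

theorem bez : IsBezout (integralClosure ℤ ℂ) := by
  rw [IsBezout.iff_span_pair_isPrincipal]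
  intro x y
  by_cases hxy : x = 0 ∧ y = 0
  · obtain ⟨rfl, rfl⟩ := hxy
    exact ⟨⟨0, by simp⟩⟩
  let K : IntermediateField ℚ ℂ := IntermediateField.adjoin ℚ {x.1, y.1}
  have hfd : FiniteDimensional ℚ K := by
    refine exists_nf _ (by simp) ?_
    intro z hz
    rcases hz with rfl | hz
    · exact x.2.tower_top
    · rw [Set.mem_singleton_iff.1 hz]; exact y.2.tower_top
  have : NumberField K := { to_charZero := inferInstance, to_finiteDimensional := hfd }
  have hxK : x.1 ∈ K := IntermediateField.subset_adjoin _ _ (by simp)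
  have hyK : y.1 ∈ K := IntermediateField.subset_adjoin _ _ (by simp)
  let x' : 𝓞 K := ⟨⟨x.1, hxK⟩,
    (isIntegral_algebraMap_iff (algebraMap K ℂ).injective).1 x.2⟩
  let y' : 𝓞 K := ⟨⟨y.1, hyK⟩,
    (isIntegral_algebraMap_iff (algebraMap K ℂ).injective).1 y.2⟩
  let φ : 𝓞 K →+* integralClosure ℤ ℂ :=
    { toFun := fun a => ⟨a.1.1, by
        have := a.2
        exact (isIntegral_algebraMap_iff (algebraMap K ℂ).injective).2 a.2⟩
      map_one' := rfl
      map_mul' := fun _ _ => rfl
      map_zero' := rfl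
      map_add' := fun _ _ => rfl }
  have hφx : φ x' = x := rfl
  have hφy : φ y' = y := rfl
  let J : Ideal (𝓞 K) := Ideal.span {x', y'}
  have hJ : J ≠ ⊥ := by
    intro h
    rw [Ideal.span_eq_bot] at h
    apply hxy
    constructor
    · rw [← hφx, h x' (by simp), map_zero]
    · rw [← hφy, h y' (by simp), map_zero]
  have hJ' : J ∈ nonZeroDivisors (Ideal (𝓞 K)) := mem_nonZeroDivisors_of_ne_zero hJ
  obtain ⟨h, hh, hJh⟩ : ∃ h : ℕ, 0 < h ∧ (J ^ h).IsPrincipal := by
    refine ⟨Fintype.card (ClassGroup (𝓞 K)), Fintype.card_pos, ?_⟩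
    rw [← ClassGroup.mk0_eq_one_iff (pow_mem hJ' _)]
    have := pow_card_eq_one (x := ClassGroup.mk0 ⟨J, hJ'⟩)
    rw [← map_pow] at this
    exact this
  obtain ⟨c, hc⟩ := hJh.principal
  change J ^ h = Ideal.span {c} at hc
  have hc0 : c ≠ 0 := by
    rintro rfl
    rw [Set.singleton_zero, Ideal.span_zero] at hc
    exact pow_ne_zero h hJ hc
  obtain ⟨a, ha⟩ := IsAlgClosed.exists_pow_nat_eq (φ c).1 hh
  have hφc : (φ c).1 ≠ 0 := by
    intro h0
    apply hc0
    have : (algebraMap (𝓞 K) K c : K) = 0 := by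
      apply Subtype.ext
      exact h0
    exact (FaithfulSMul.algebraMap_injective (𝓞 K) K) (by rw [this, map_zero])
  have ha0 : a ≠ 0 := by
    rintro rfl
    rw [zero_pow hh.ne'] at ha
    exact hφc ha.symm
  have haI : IsIntegral ℤ a := IsIntegral.of_pow hh (by rw [ha]; exact (φ c).2)
  have key : ∀ z : 𝓞 K, z ∈ J → IsIntegral ℤ ((φ z).1 / a) := by
    intro z hz
    have h1 : z ^ h ∈ Ideal.span {c} := hc ▸ Ideal.pow_mem_pow hz h
    obtain ⟨d, hd⟩ := Ideal.mem_span_singleton'.1 h1
    refine IsIntegral.of_pow hh ?_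
    have : ((φ z).1 / a) ^ h = (φ d).1 := by
      rw [div_pow, ha, div_eq_iff hφc]
      have := congrArg (fun w => (φ w).1) hd
      simp only [map_mul, map_pow] at this
      exact this.symm
    rw [this]
    exact (φ d).2
  let a' : integralClosure ℤ ℂ := ⟨a, haI⟩
  let b₁ : integralClosure ℤ ℂ := ⟨x.1 / a, key x' (Ideal.subset_span (by simp))⟩
  let b₂ : integralClosure ℤ ℂ := ⟨y.1 / a, key y' (Ideal.subset_span (by simp))⟩
  have hx : a' * b₁ = x := Subtype.ext (mul_div_cancel₀ _ ha0)
  have hy : a' * b₂ = y := Subtype.ext (mul_div_cancel₀ _ ha0)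
  have ha'c : a' ^ h = φ c := Subtype.ext ha
  have h0 : Ideal.span {x, y} = Ideal.span {a'} * Ideal.span {b₁, b₂} := by
    rw [Ideal.span_mul_span', Set.singleton_mul, Set.image_pair, hx, hy]
  have h1 : Ideal.map φ J = Ideal.span {a'} * Ideal.span {b₁, b₂} := by
    rw [Ideal.map_span, Set.image_pair, hφx, hφy, h0]
  have h2 : Ideal.span {φ c} * Ideal.span {b₁, b₂} ^ h = Ideal.span {φ c} * ⊤ := by
    have := congrArg (Ideal.map φ) hc
    rw [Ideal.map_pow, h1, mul_pow, Ideal.span_singleton_pow, ha'c, Ideal.map_span,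
      Set.image_singleton] at this
    rw [this, Ideal.mul_top]
  have hφc0 : φ c ≠ 0 := fun h0 => hφc (congrArg Subtype.val h0)
  rw [Ideal.span_singleton_mul_right_inj hφc0] at h2
  have h3 : Ideal.span {b₁, b₂} = (⊤ : Ideal (integralClosure ℤ ℂ)) := by
    rw [eq_top_iff, ← h2]
    exact Ideal.pow_le_self hh.ne'
  refine ⟨⟨a', ?_⟩⟩
  rw [h0, h3, Ideal.mul_top]

/-- Finitely generated modules of algebraic numbers with a common denominator are cyclic. -/
theorem cyc (J : Submodule (integralClosure ℤ ℂ) ℂ) (hJ : J.FG) {d : ℂ} (hd : d ≠ 0)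
    (h : ∀ z ∈ J, IsIntegral ℤ (d * z)) :
    ∃ a, J = Submodule.span (integralClosure ℤ ℂ) {a} := by
  have := bez
  let f : integralClosure ℤ ℂ →ₗ[integralClosure ℤ ℂ] ℂ :=
    LinearMap.toSpanSingleton (integralClosure ℤ ℂ) ℂ d⁻¹
  have hf : ∀ w, f w = w.1 * d⁻¹ := fun w => by
    simp [f, LinearMap.toSpanSingleton_apply, Subalgebra.smul_def]
  have hinj : Function.Injective f := by
    intro w w' hw
    rw [hf, hf] at hw
    exact Subtype.ext (mul_right_cancel₀ (inv_ne_zero hd) hw)
  have hmap : (J.comap f).map f = J := by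
    apply le_antisymm (Submodule.map_comap_le _ _)
    intro z hz
    refine ⟨⟨d * z, h z hz⟩, ?_, ?_⟩
    · change f _ ∈ J
      rw [hf]
      simpa [mul_comm d z, mul_assoc, hd] using hz
    · rw [hf]
      simp [mul_comm d z, hd]
  have hfg : (J.comap f).FG := Submodule.fg_of_fg_map_injective f hinj (by rwa [hmap])
  obtain ⟨w, hw⟩ := (IsBezout.isPrincipal_of_FG (J.comap f) hfg).principal
  refine ⟨f w, ?_⟩
  rw [← hmap, hw, Submodule.map_span, Set.image_singleton]

/-- `w ↦ (0, w)` -/
noncomputable def zc (n : ℕ) (S : Type*) [CommRing S] [Algebra S ℂ] :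
    (Fin n → ℂ) →ₗ[S] (Fin (n + 1) → ℂ) where
  toFun w := Fin.cons 0 w
  map_add' a b := by
    ext i
    refine Fin.cases ?_ (fun j => ?_) i <;> simp
  map_smul' c a := by
    ext i
    refine Fin.cases ?_ (fun j => ?_) i <;> simp

theorem zc_inj (n : ℕ) (S : Type*) [CommRing S] [Algebra S ℂ] :
    Function.Injective (zc n S) := by
  intro a b h
  ext j
  have := congrFun h j.succ
  simpa [zc] using this

theorem free (n : ℕ) : ∀ (M : Submodule (integralClosure ℤ ℂ) (Fin n → ℂ)), M.FG →
    (∃ d : ℂ, d ≠ 0 ∧ ∀ v ∈ M, ∀ i, IsIntegral ℤ (d * v i)) →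
    ∃ (s : ℕ) (b : Fin s → (Fin n → ℂ)), LinearIndependent ℂ b ∧
      Submodule.span (integralClosure ℤ ℂ) (Set.range b) = M := by
  induction n with
  | zero =>
    intro M _ _
    refine ⟨0, Fin.elim0, linearIndependent_empty_type, ?_⟩
    exact Subsingleton.elim _ _
  | succ n ih =>
    rintro M hM ⟨d, hd, hdM⟩
    let pr : (Fin (n + 1) → ℂ) →ₗ[integralClosure ℤ ℂ] ℂ := LinearMap.proj 0
    obtain ⟨a, ha⟩ := cyc (M.map pr) (hM.map _) hd (by
      rintro z ⟨v, hv, rfl⟩
      exact hdM v hv 0)
    -- the kernel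
    have hker : ∀ M₀ : Submodule (integralClosure ℤ ℂ) (Fin (n + 1) → ℂ), M₀.FG → M₀ ≤ M →
        (∀ v ∈ M₀, v 0 = 0) → ∃ (s : ℕ) (b : Fin s → (Fin (n + 1) → ℂ)), LinearIndependent ℂ b ∧
          (∀ i, b i 0 = 0) ∧
          Submodule.span (integralClosure ℤ ℂ) (Set.range b) = M₀ := by
      intro M₀ hfg hle h0
      have hmap : (M₀.comap (zc n (integralClosure ℤ ℂ))).map (zc n (integralClosure ℤ ℂ))
          = M₀ := by
        apply le_antisymm (Submodule.map_comap_le _ _)
        intro v hv
        have hv' : zc n (integralClosure ℤ ℂ) (Fin.tail v) = v := by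
          ext i
          refine Fin.cases ?_ (fun j => ?_) i
          · simp [zc, h0 v hv]
          · simp [zc, Fin.tail]
        refine ⟨Fin.tail v, ?_, hv'⟩
        change zc n (integralClosure ℤ ℂ) _ ∈ M₀
        rwa [hv']
      obtain ⟨s, b, hb, hs⟩ := ih (M₀.comap (zc n (integralClosure ℤ ℂ)))
        (Submodule.fg_of_fg_map_injective _ (zc_inj n _) (by rwa [hmap])) ⟨d, hd, by
          intro v hv i
          have := hdM _ (hle hv) i.succ
          simpa [zc] using this⟩
      refine ⟨s, fun i => zc n ℂ (b i), hb.map' (zc n ℂ) (LinearMap.ker_eq_bot.2 (zc_inj n ℂ)),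
        fun i => by simp [zc], ?_⟩
      rw [← hmap, ← hs, Submodule.map_span, ← Set.range_comp]
      rfl
    by_cases ha0 : a = 0
    · obtain ⟨s, b, h1, -, h2⟩ := hker M hM le_rfl (by
        intro v hv
        have : v 0 ∈ M.map pr := ⟨v, hv, rfl⟩
        rw [ha, ha0] at this
        simpa using this)
      exact ⟨s, b, h1, h2⟩
    · obtain ⟨v, hvM, hv⟩ : a ∈ M.map pr := ha ▸ Submodule.mem_span_singleton_self a
      change v 0 = a at hv
      have hco : ∀ m ∈ M, ∃ c : integralClosure ℤ ℂ, m 0 = c.1 * a := by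
        intro m hm
        have : m 0 ∈ M.map pr := ⟨m, hm, rfl⟩
        rw [ha] at this
        obtain ⟨c, hc⟩ := Submodule.mem_span_singleton.1 this
        exact ⟨c, hc.symm⟩
      let π : (Fin (n + 1) → ℂ) →ₗ[integralClosure ℤ ℂ] (Fin (n + 1) → ℂ) :=
        { toFun := fun m => m - (m 0 / a) • v
          map_add' := fun x y => by
            ext i
            simp only [Pi.add_apply, Pi.sub_apply, Pi.smul_apply, smul_eq_mul]
            ring
          map_smul' := fun c x => by
            ext i
            simp only [Pi.sub_apply, Pi.smul_apply, smul_eq_mul, RingHom.id_apply,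
              Subalgebra.smul_def]
            ring }
      have hπ : ∀ m ∈ M, π m ∈ M := by
        intro m hm
        obtain ⟨c, hc⟩ := hco m hm
        have : π m = m - c • v := by
          change m - (m 0 / a) • v = _
          rw [hc, mul_div_assoc, div_self ha0, mul_one]
          rfl
        rw [this]
        exact M.sub_mem hm (M.smul_mem c hvM)
      have hπ0 : ∀ m, π m 0 = 0 := by
        intro m
        change m 0 - (m 0 / a) * v 0 = 0
        rw [hv, div_mul_cancel₀ _ ha0, sub_self]
      obtain ⟨s, b, hb, hb0, hs⟩ := hker (M.map π) (hM.map π) (by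
        rintro _ ⟨m, hm, rfl⟩
        exact hπ m hm) (by
        rintro _ ⟨m, hm, rfl⟩
        exact hπ0 m)
      refine ⟨s + 1, Fin.cons v b, ?_, ?_⟩
      · rw [linearIndependent_finCons]
        refine ⟨hb, fun h => ha0 ?_⟩
        rw [← hv]
        have : Submodule.span ℂ (Set.range b) ≤ LinearMap.ker (LinearMap.proj (R := ℂ)
            (φ := fun _ : Fin (n + 1) => ℂ) 0) := by
          rw [Submodule.span_le]
          rintro _ ⟨i, rfl⟩
          exact hb0 i
        exact this h
      · rw [Fin.range_cons, Submodule.span_insert, hs]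
        apply le_antisymm
        · rw [sup_le_iff]
          constructor
          · rw [Submodule.span_singleton_le_iff_mem]
            exact hvM
          · rintro _ ⟨m, hm, rfl⟩
            exact hπ m hm
        · intro m hm
          obtain ⟨c, hc⟩ := hco m hm
          have : m = c • v + π m := by
            change m = c • v + (m - (m 0 / a) • v)
            rw [hc, mul_div_assoc, div_self ha0, mul_one]
            change m = c.1 • v + (m - c.1 • v)
            abel
          rw [this]
          exact Submodule.add_mem_sup (Submodule.smul_mem _ _ (Submodule.mem_span_singleton_self v))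
            ⟨m, hm, rfl⟩

theorem exists_denom (s : Finset ℂ) (h : ∀ z ∈ s, IsIntegral ℚ z) :
    ∃ d : ℂ, d ≠ 0 ∧ IsIntegral ℤ d ∧ ∀ z ∈ s, IsIntegral ℤ (d * z) := by
  classical
  induction s using Finset.induction_on with
  | empty => exact ⟨1, one_ne_zero, isIntegral_one, by simp⟩
  | insert a s ha ih =>
    obtain ⟨d, hd, hdi, hds⟩ := ih fun z hz => h z (Finset.mem_insert_of_mem hz)
    have h1 : IsAlgebraic ℤ a := by
      have : IsAlgebraic ℚ a := (h a (Finset.mem_insert_self _ _)).isAlgebraic
      exact (IsFractionRing.isAlgebraic_iff ℤ ℚ ℂ).2 this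
    obtain ⟨y, hy, hya⟩ := h1.exists_integral_multiple
    refine ⟨(y : ℂ) * d, mul_ne_zero (by exact_mod_cast hy) hd, ?_, ?_⟩
    · exact (isIntegral_algebraMap (R := ℤ) (A := ℂ) (x := y)).mul hdi
    · intro z hz
      rcases Finset.mem_insert.1 hz with rfl | hz
      · have : (y : ℂ) * d * z = d * (y • z) := by
          rw [zsmul_eq_mul]; ring
        rw [this]
        exact hdi.mul hya
      · rw [mul_assoc]
        exact (isIntegral_algebraMap (R := ℤ) (A := ℂ) (x := y)).mul (hds z hz)

theorem conj_integral {r : ℕ} {G : Type*} [Group G] [Finite G]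
    (τ : G →* Matrix (Fin r) (Fin r) ℂ) (h : ∀ g i j, IsIntegral ℚ (τ g i j)) :
    ∃ P Q : Matrix (Fin r) (Fin r) ℂ, P * Q = 1 ∧ Q * P = 1 ∧
      ∀ g i j, IsIntegral ℤ ((Q * τ g * P) i j) := by
  classical
  have := Fintype.ofFinite G
  let M : Submodule (integralClosure ℤ ℂ) (Fin r → ℂ) :=
    Submodule.span _ (Set.range fun p : G × Fin r => fun j => τ p.1 j p.2)
  have hfg : M.FG := Submodule.fg_span (Set.finite_range _)
  obtain ⟨d, hd, -, hds⟩ := exists_denom
    (Finset.univ.image fun p : G × Fin r × Fin r => τ p.1 p.2.1 p.2.2) (by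
      intro z hz
      obtain ⟨p, -, rfl⟩ := Finset.mem_image.1 hz
      exact h _ _ _)
  obtain ⟨s, b, hb, hs⟩ := free r M hfg ⟨d, hd, by
    intro v hv
    induction hv using Submodule.span_induction with
    | mem x hx =>
      obtain ⟨p, rfl⟩ := hx
      intro i
      exact hds _ (Finset.mem_image.2 ⟨(p.1, i, p.2), Finset.mem_univ _, rfl⟩)
    | zero => intro i; simp [isIntegral_zero]
    | add x y _ _ hx hy =>
      intro i
      rw [Pi.add_apply, mul_add]
      exact (hx i).add (hy i)
    | smul c x _ hx =>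
      intro i
      have : d * (c • x) i = c.1 * (d * x i) := by
        change d * (c.1 * x i) = _
        ring
      rw [this]
      exact c.2.mul (hx i)⟩
  have he : ∀ i, (Pi.single i 1 : Fin r → ℂ) ∈ M := by
    intro i
    refine Submodule.subset_span ⟨(1, i), ?_⟩
    ext j
    simp [Matrix.one_apply, Pi.single_apply]
  have htop : ⊤ ≤ Submodule.span ℂ (Set.range b) := by
    have h1 : (M : Set (Fin r → ℂ)) ⊆ Submodule.span ℂ (Set.range b) := by
      rw [← hs]
      exact Submodule.span_subset_span (integralClosure ℤ ℂ) ℂ _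
    intro v _
    rw [pi_eq_sum_univ' v]
    refine Submodule.sum_mem _ fun i _ => Submodule.smul_mem _ _ ?_
    have := h1 (he i)
    rw [SetLike.mem_coe] at this
    convert this using 2
  have hsr : s = r := by
    have h2 := Module.finrank_eq_card_basis (Module.Basis.mk hb htop)
    simpa using h2.symm
  subst hsr
  let P : Matrix (Fin s) (Fin s) ℂ := Matrix.of fun i j => b j i
  have hP : IsUnit P := by
    rw [← Matrix.linearIndependent_cols_iff_isUnit]
    exact hb
  have hdet : IsUnit P.det := (Matrix.isUnit_iff_isUnit_det P).1 hP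
  have hstab : ∀ g, ∀ v ∈ M, τ g *ᵥ v ∈ M := by
    intro g v hv
    induction hv using Submodule.span_induction with
    | mem x hx =>
      obtain ⟨p, rfl⟩ := hx
      refine Submodule.subset_span ⟨(g * p.1, p.2), ?_⟩
      ext j
      simp only [map_mul, Matrix.mul_apply, Matrix.mulVec, dotProduct]
    | zero => rw [Matrix.mulVec_zero]; exact M.zero_mem
    | add x y _ _ hx hy => rw [Matrix.mulVec_add]; exact M.add_mem hx hy
    | smul c x _ hx =>
      have : τ g *ᵥ (c • x) = c • (τ g *ᵥ x) := by
        change τ g *ᵥ (c.1 • x) = c.1 • _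
        rw [Matrix.mulVec_smul]
      rw [this]
      exact M.smul_mem _ hx
  refine ⟨P, P⁻¹, Matrix.mul_nonsing_inv _ hdet, Matrix.nonsing_inv_mul _ hdet, ?_⟩
  intro g
  have h1 : ∀ j, ∃ c : Fin s → integralClosure ℤ ℂ, ∑ i, c i • b i = τ g *ᵥ b j := by
    intro j
    have : b j ∈ M := hs ▸ Submodule.subset_span ⟨j, rfl⟩
    have := hstab g _ this
    rw [← hs] at this
    exact (Submodule.mem_span_range_iff_exists_fun _).1 this
  choose c hc using h1
  have h2 : τ g * P = P * Matrix.of fun i j => (c j i).1 := by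
    ext i j
    have := congrFun (hc j) i
    simp only [Finset.sum_apply] at this
    rw [Matrix.mul_apply, Matrix.mul_apply]
    change ∑ k, τ g i k * b j k = ∑ k, b k i * (c j k).1
    change _ = ∑ k, τ g i k * b j k at this
    rw [← this]
    refine Finset.sum_congr rfl fun k _ => ?_
    change (c j k).1 * b k i = _
    ring
  intro i j
  rw [Matrix.mul_assoc, h2, Matrix.nonsing_inv_mul_cancel_left _ _ hdet]
  exact (c j i).2

end Vale.Agent.P002.H306
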