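import Mathlib

/-!
# Reduction of an extension by a divisible group to a finite group
-/

namespace Vale.Agent.P002.H306

variable {E T Γ : Type*} [Group E] [CommGroup T] [Group Γ]

theorem split (D : T →* E) (hD : Function.Injective D) (σ : Γ →* E) (act : Γ →* MulAut T)
    (hact : ∀ g u, σ g * D u = D (act g u) * σ g) (H : Subgroup Γ) [hN : H.Normal] [H.FiniteIndex]
    (hH : ∀ h ∈ H, ∃ u, σ h = D u) (hdiv : ∀ n : ℕ, 0 < n → ∀ t : T, ∃ s, s ^ n = t) :
    ∃ w : Γ ⧸ H → E, (∀ γ, ∃ t, σ γ = D t * w γ) ∧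
      ∀ M : ℕ, H.index ∣ M → ∃ Φ : Subgroup E, ∀ g, g ∈ Φ ↔ ∃ u q, u ^ M = 1 ∧ g = D u * w q := by
  classical
  have := H.fintypeQuotientOfFiniteIndex
  have hHx : ∀ a b : Γ, (a : Γ ⧸ H) = b → ∃ t, σ a = D t * σ b := by
    intro a b hab
    have h1 : a * b⁻¹ ∈ H := by
      rw [← QuotientGroup.eq_one_iff, QuotientGroup.mk_mul, QuotientGroup.mk_inv, hab,
        mul_inv_cancel]
    obtain ⟨t, ht⟩ := hH _ h1
    refine ⟨t, ?_⟩
    rw [← ht, ← map_mul, inv_mul_cancel_right]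
  obtain ⟨x, hx⟩ : ∃ x : Γ ⧸ H → E, ∀ q, x q = σ q.out := ⟨_, fun _ => rfl⟩
  obtain ⟨a, ha⟩ : ∃ a : Γ ⧸ H → MulAut T, ∀ q, a q = act q.out := ⟨_, fun _ => rfl⟩
  have hxD : ∀ q u, x q * D u = D (a q u) * x q := by
    intro q u
    rw [hx, ha, hact]
  have hc : ∀ p q, ∃ t, x p * x q = D t * x (p * q) := by
    intro p q
    obtain ⟨t, ht⟩ := hHx (p.out * q.out) (p * q).out (by simp)
    exact ⟨t, by rw [hx, hx, hx, ← map_mul, ht]⟩
  choose c hc using hc
  have hcoc : ∀ p q s, c p q * c (p * q) s = a p (c q s) * c p (q * s) := by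
    intro p q s
    apply hD
    have h1 : x p * x q * x s = D (c p q * c (p * q) s) * x (p * q * s) := by
      rw [hc, mul_assoc, hc, ← mul_assoc, map_mul]
    have h2 : x p * (x q * x s) = D (a p (c q s) * c p (q * s)) * x (p * (q * s)) := by
      rw [hc, ← mul_assoc, hxD, mul_assoc, hc, ← mul_assoc, map_mul]
    rw [mul_assoc, h2, mul_assoc p q s] at h1
    exact (mul_right_cancel h1).symm
  let y : Γ ⧸ H → T := fun p => ∏ s, c p s
  have hm : Fintype.card (Γ ⧸ H) = H.index := by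
    rw [Subgroup.index, Nat.card_eq_fintype_card]
  have hy : ∀ p q, c p q ^ H.index * y (p * q) = a p (y q) * y p := by
    intro p q
    have h1 : ∏ s, (c p q * c (p * q) s) = ∏ s, (a p (c q s) * c p (q * s)) :=
      Finset.prod_congr rfl fun s _ => hcoc p q s
    rw [Finset.prod_mul_distrib, Finset.prod_mul_distrib, Finset.prod_const, Finset.card_univ, hm,
      ← map_prod] at h1
    have h2 : ∏ s, c p (q * s) = y p := Equiv.prod_comp (Equiv.mulLeft q) (c p)
    rw [h2] at h1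
    exact h1
  choose z hz using fun p => hdiv H.index (Nat.pos_of_ne_zero Subgroup.FiniteIndex.index_ne_zero)
    (y p)
  obtain ⟨w, hw⟩ : ∃ w : Γ ⧸ H → E, ∀ q, w q = D (z q)⁻¹ * x q := ⟨_, fun _ => rfl⟩
  have hxw : ∀ q, x q = D (z q) * w q := by
    intro q
    rw [hw, ← mul_assoc, ← map_mul, mul_inv_cancel, map_one, one_mul]
  obtain ⟨c', hc'd⟩ : ∃ c' : Γ ⧸ H → Γ ⧸ H → T, ∀ p q,
    c' p q = (z p)⁻¹ * (a p (z q))⁻¹ * c p q * z (p * q) := ⟨_, fun _ _ => rfl⟩
  have hww : ∀ p q, w p * w q = D (c' p q) * w (p * q) := by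
    intro p q
    calc w p * w q = D (z p)⁻¹ * (x p * D (z q)⁻¹) * x q := by
          rw [hw, hw]; simp only [mul_assoc]
      _ = D (z p)⁻¹ * D (a p (z q)⁻¹) * (x p * x q) := by rw [hxD]; simp only [mul_assoc]
      _ = D (z p)⁻¹ * D (a p (z q)⁻¹) * (D (c p q) * (D (z (p * q)) * w (p * q))) := by
          rw [hc, hxw (p * q)]
      _ = D (c' p q) * w (p * q) := by
          simp only [hc'd, map_mul, map_inv, mul_assoc]
  have hc' : ∀ p q, c' p q ^ H.index = 1 := by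
    intro p q
    have h1 := hy p q
    rw [← hz, ← hz, ← hz, map_pow] at h1
    simp only [hc'd, mul_pow, inv_pow]
    rw [mul_assoc, h1]
    rw [mul_comm (a p (z q) ^ H.index), mul_assoc, inv_mul_eq_one]
    rw [mul_comm, mul_assoc, mul_inv_cancel, mul_one]
  have hwD : ∀ q u, w q * D u = D (a q u) * w q := by
    intro q u
    rw [hw, mul_assoc, hxD, ← mul_assoc, ← mul_assoc, ← map_mul, ← map_mul, mul_comm (z q)⁻¹]
  have hw1 : w 1 = D (c' 1 1) := by
    have := hww 1 1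
    rw [mul_one] at this
    exact mul_right_cancel this
  refine ⟨w, ?_, ?_⟩
  · intro γ
    obtain ⟨t, ht⟩ := hHx γ (γ : Γ ⧸ H).out (by simp)
    refine ⟨t * z γ, ?_⟩
    rw [ht, ← hx, hxw, map_mul, mul_assoc]
  · rintro M ⟨k, rfl⟩
    have hc'M : ∀ p q, c' p q ^ (H.index * k) = 1 := fun p q => by
      rw [pow_mul, hc', one_pow]
    refine ⟨{ carrier := {g | ∃ u q, u ^ (H.index * k) = 1 ∧ g = D u * w q}
              mul_mem' := ?_
              one_mem' := ?_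
              inv_mem' := ?_ }, fun g => Iff.rfl⟩
    · rintro _ _ ⟨u, p, hu, rfl⟩ ⟨v, q, hv, rfl⟩
      refine ⟨u * a p v * c' p q, p * q, ?_, ?_⟩
      · rw [mul_pow, mul_pow, hu, ← map_pow, hv, map_one, hc'M, one_mul, one_mul]
      · rw [map_mul, map_mul, mul_assoc, ← mul_assoc (w p), hwD, mul_assoc (D (a p v)), hww]
        simp only [mul_assoc]
    · refine ⟨(c' 1 1)⁻¹, 1, ?_, ?_⟩
      · rw [inv_pow, hc'M, inv_one]
      · rw [hw1, ← map_mul, inv_mul_cancel, map_one]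
    · rintro _ ⟨u, q, hu, rfl⟩
      refine ⟨(c' q⁻¹ q * c' 1 1)⁻¹ * a q⁻¹ u⁻¹, q⁻¹, ?_, ?_⟩
      · rw [mul_pow, inv_pow, mul_pow, hc'M, hc'M, one_mul, inv_one, one_mul, ← map_pow, inv_pow,
          hu, inv_one, map_one]
      · have h1 : w q⁻¹ * w q = D (c' q⁻¹ q * c' 1 1) := by
          rw [hww, inv_mul_cancel, hw1, map_mul]
        rw [map_mul, mul_assoc, ← hwD, map_inv, ← h1, map_inv]
        group

end Vale.Agent.P002.H306
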