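import Vale.Agent.P002.Bd3.B2

/-!
# Density of conjugates by integral matrices and of powers of a unit
-/

namespace Vale.Agent.P002.H306

open Matrix

section loc

variable {X : Type*} (P : Subalgebra ℂ (X → ℂ)) (δ : X → ℂ)

/-- localization of an algebra of functions -/
def Loc (hδ : δ ∈ P) : Subalgebra ℂ (X → ℂ) where
  carrier := {G | ∃ N : ℕ, δ ^ N * G ∈ P}
  mul_mem' := by
    rintro a b ⟨N, hN⟩ ⟨M, hM⟩
    refine ⟨N + M, ?_⟩
    have : δ ^ (N + M) * (a * b) = (δ ^ N * a) * (δ ^ M * b) := by ring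
    rw [this]
    exact P.mul_mem hN hM
  add_mem' := by
    rintro a b ⟨N, hN⟩ ⟨M, hM⟩
    refine ⟨N + M, ?_⟩
    have : δ ^ (N + M) * (a + b) = δ ^ M * (δ ^ N * a) + δ ^ N * (δ ^ M * b) := by ring
    rw [this]
    exact P.add_mem (P.mul_mem (P.pow_mem hδ _) hN) (P.mul_mem (P.pow_mem hδ _) hM)
  algebraMap_mem' := by
    intro c
    refine ⟨0, ?_⟩
    rw [pow_zero, one_mul]
    exact P.algebraMap_mem c

end loc

theorem eval_mem {X κ : Type*} (P : Subalgebra ℂ (X → ℂ)) (G : κ → X → ℂ) (hG : ∀ q, G q ∈ P)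
    (F : MvPolynomial κ ℂ) : (fun x => MvPolynomial.eval (fun q => G q x) F) ∈ P := by
  induction F using MvPolynomial.induction_on with
  | C a =>
    simp only [MvPolynomial.eval_C]
    exact P.algebraMap_mem a
  | add f g hf hg =>
    simp only [map_add]
    exact P.add_mem hf hg
  | mul_X f q hf =>
    simp only [map_mul, MvPolynomial.eval_X]
    exact P.mul_mem hf (hG q)

section laurent

/-- Laurent polynomials -/
noncomputable def Lau : Subalgebra ℂ (ℂˣ → ℂ) :=
  Loc (Polynomial.aeval (R := ℂ) (fun y : ℂˣ => (y : ℂ))).range (fun y => (y : ℂ))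
    ⟨Polynomial.X, by simp⟩

theorem Lau_zpow (k : ℤ) : (fun y : ℂˣ => ((y ^ k : ℂˣ) : ℂ)) ∈ Lau := by
  rcases Int.eq_nat_or_neg k with ⟨n, rfl | rfl⟩
  · refine ⟨0, Polynomial.X ^ n, ?_⟩
    ext y
    simp
  · refine ⟨n, 1, ?_⟩
    ext y
    simp

theorem Lau_zero (G : ℂˣ → ℂ) (hG : G ∈ Lau) (s : Set ℂˣ) (hs : s.Infinite)
    (h : ∀ y ∈ s, G y = 0) : ∀ y, G y = 0 := by
  obtain ⟨N, p, hp⟩ := hG
  have hp' : ∀ y : ℂˣ, p.eval (y : ℂ) = (y : ℂ) ^ N * G y := by
    intro y
    have := congrFun hp y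
    simp only [Pi.mul_apply, Pi.pow_apply] at this
    rw [← this]
    change _ = (Polynomial.aeval (R := ℂ) (fun y : ℂˣ => (y : ℂ))) p y
    rw [Polynomial.aeval_fn_apply]
    simp
  have hp0 : p = 0 := by
    apply Polynomial.eq_zero_of_infinite_isRoot
    refine (hs.image (f := fun y : ℂˣ => (y : ℂ)) (Units.val_injective.injOn)).mono ?_
    rintro _ ⟨y, hy, rfl⟩
    change p.eval _ = 0
    rw [hp', h y hy, mul_zero]
  intro y
  have := hp' y
  rw [hp0, Polynomial.eval_zero] at this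
  exact (mul_eq_zero.1 this.symm).resolve_left (pow_ne_zero _ y.ne_zero)

/-- several variables -/
theorem multi_Lau {s : ℕ} (G : (Fin s → ℂˣ) → ℂ)
    (hG : ∀ y i, (fun c => G (Function.update y i c)) ∈ Lau) (U : Set ℂˣ) (hU : U.Infinite)
    (h : ∀ y : Fin s → ℂˣ, (∀ i, y i ∈ U) → G y = 0) : ∀ y, G y = 0 := by
  classical
  have key : ∀ T : Finset (Fin s), ∀ y : Fin s → ℂˣ, (∀ i, i ∉ T → y i ∈ U) → G y = 0 := by
    intro T
    induction T using Finset.induction_on with
    | empty => exact fun y hy => h y fun i => hy i (Finset.notMem_empty i)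
    | insert i T hi ih =>
      intro y hy
      have := Lau_zero _ (hG y i) U hU (by
        intro c hc
        apply ih
        intro j hj
        by_cases hji : j = i
        · subst hji; simpa using hc
        · rw [Function.update_of_ne hji]
          exact hy j (by simp [hji, hj])) (y i)
      simpa using this
  exact fun y => key Finset.univ y fun i hi => (hi (Finset.mem_univ i)).elim

end laurent

section gl

variable {r : ℕ}

/-- polynomial functions of matrices -/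
noncomputable def polyHom (r : ℕ) : MvPolynomial (Fin r × Fin r) ℂ →ₐ[ℂ]
    ((Matrix (Fin r) (Fin r) ℂ)ˣ → ℂ) :=
  MvPolynomial.aeval (fun (q : Fin r × Fin r) (T : (Matrix (Fin r) (Fin r) ℂ)ˣ) => T.1 q.1 q.2)

theorem polyHom_apply (p : MvPolynomial (Fin r × Fin r) ℂ) (T : (Matrix (Fin r) (Fin r) ℂ)ˣ) :
    polyHom r p T = MvPolynomial.eval (fun q : Fin r × Fin r => T.1 q.1 q.2) p := by
  induction p using MvPolynomial.induction_on with
  | C a =>
    rw [← MvPolynomial.algebraMap_eq, AlgHom.commutes]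
    simp
  | add f g hf hg => rw [map_add, Pi.add_apply, hf, hg, map_add]
  | mul_X f q hf =>
    rw [map_mul, Pi.mul_apply, hf, map_mul]
    simp [polyHom]

theorem evalX_map (T : Matrix (Fin r) (Fin r) ℂ) :
    (MvPolynomial.eval (fun q : Fin r × Fin r => T q.1 q.2)).mapMatrix
      (mvPolynomialX (Fin r) (Fin r) ℂ) = T := by
  ext i j
  simp [mvPolynomialX]

theorem polyHom_det (T : (Matrix (Fin r) (Fin r) ℂ)ˣ) :
    polyHom r (mvPolynomialX (Fin r) (Fin r) ℂ).det T = T.1.det := by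
  rw [polyHom_apply, RingHom.map_det, evalX_map]

theorem polyHom_adj (i j : Fin r) (T : (Matrix (Fin r) (Fin r) ℂ)ˣ) :
    polyHom r ((mvPolynomialX (Fin r) (Fin r) ℂ).adjugate i j) T = T.1.adjugate i j := by
  rw [polyHom_apply]
  have := congrFun (congrFun (RingHom.map_adjugate
    (MvPolynomial.eval (fun q : Fin r × Fin r => T.1 q.1 q.2))
    (mvPolynomialX (Fin r) (Fin r) ℂ)) i) j
  rw [evalX_map] at this
  exact this

/-- rational functions on `GL_r` -/
noncomputable def Rat (r : ℕ) : Subalgebra ℂ ((Matrix (Fin r) (Fin r) ℂ)ˣ → ℂ) :=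
  Loc (polyHom r).range (fun T => T.1.det) ⟨(mvPolynomialX (Fin r) (Fin r) ℂ).det, by
    ext T
    exact polyHom_det T⟩

theorem Rat_entry (i j : Fin r) : (fun T : (Matrix (Fin r) (Fin r) ℂ)ˣ => T.1 i j) ∈ Rat r := by
  refine ⟨0, MvPolynomial.X (i, j), ?_⟩
  ext T
  change polyHom r _ T = _
  rw [polyHom_apply]
  simp

theorem Rat_inv_entry (i j : Fin r) :
    (fun T : (Matrix (Fin r) (Fin r) ℂ)ˣ => T⁻¹.1 i j) ∈ Rat r := by
  refine ⟨1, (mvPolynomialX (Fin r) (Fin r) ℂ).adjugate i j, ?_⟩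
  ext T
  change polyHom r _ T = (T.1.det) ^ 1 * _
  rw [polyHom_adj, pow_one]
  have h1 : T.1.adjugate = T.1.det • T⁻¹.1 := by
    calc T.1.adjugate = T.1.adjugate * (T.1 * T⁻¹.1) := by
          rw [← Units.val_mul, mul_inv_cancel, Units.val_one, mul_one]
      _ = T.1.det • T⁻¹.1 := by
          rw [← mul_assoc, Matrix.adjugate_mul, smul_mul_assoc, one_mul]
  rw [h1]
  rfl

theorem Rat_zero (G : (Matrix (Fin r) (Fin r) ℂ)ˣ → ℂ) (hG : G ∈ Rat r)
    (h : ∀ T : (Matrix (Fin r) (Fin r) ℂ)ˣ, (∃ (c : ℂˣ) (S : SpecialLinearGroup (Fin r) ℤ),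
      T.1 = (c : ℂ) • S.1.map (Int.castRingHom ℂ)) → G T = 0) : ∀ T, G T = 0 := by
  obtain ⟨N, p, hp⟩ := hG
  have hp' : ∀ T : (Matrix (Fin r) (Fin r) ℂ)ˣ,
      MvPolynomial.eval (fun q : Fin r × Fin r => T.1 q.1 q.2) p = T.1.det ^ N * G T := by
    intro T
    rw [← polyHom_apply]
    exact congrFun hp T
  have hp0 : p = 0 := by
    apply Vale.Agent.P002.scaledSL_dense
    intro c S
    have hdet : IsUnit ((c : ℂ) • S.1.map (Int.castRingHom ℂ)).det := by
      rw [Matrix.det_smul]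
      have : (S.1.map (Int.castRingHom ℂ)).det = 1 := by
        have := (Int.castRingHom ℂ).map_det S.1
        rw [S.2, map_one] at this
        exact this.symm
      rw [this, mul_one]
      exact (c.isUnit).pow _
    have hu := (Matrix.isUnit_iff_isUnit_det _).2 hdet
    obtain ⟨T, hT⟩ := hu
    have h1 := hp' T
    rw [h T ⟨c, S, hT⟩, mul_zero, hT] at h1
    exact h1
  intro T
  have := hp' T
  rw [hp0, map_zero] at this
  refine (mul_eq_zero.1 this.symm).resolve_left (pow_ne_zero _ ?_)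
  exact ((Matrix.isUnit_iff_isUnit_det _).1 T.isUnit).ne_zero

end gl

/-- The density statement used for families. -/
theorem dens {ι : Type} {r s : ℕ} (Z : (Fin s → ℂˣ) → ι → Matrix (Fin r) (Fin r) ℂ)
    (hZ : ∀ y i p a b, (fun c => Z (Function.update y i c) p a b) ∈ Lau)
    (U : Set ℂˣ) (hU : U.Infinite) (F : MvPolynomial (ι × Fin r × Fin r) ℂ)
    (h : ∀ (S : SpecialLinearGroup (Fin r) ℤ) (y : Fin s → ℂˣ), (∀ i, y i ∈ U) →
      MvPolynomial.eval (fun q : ι × Fin r × Fin r =>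
        (S.1.map (Int.castRingHom ℂ) * Z y q.1 * S⁻¹.1.map (Int.castRingHom ℂ)) q.2.1 q.2.2) F = 0)
    (T : (Matrix (Fin r) (Fin r) ℂ)ˣ) (y : Fin s → ℂˣ) :
    MvPolynomial.eval (fun q : ι × Fin r × Fin r => (T.1 * Z y q.1 * T⁻¹.1) q.2.1 q.2.2) F = 0 := by
  -- conjugation
  have h1 : ∀ y : Fin s → ℂˣ, (∀ i, y i ∈ U) → ∀ T : (Matrix (Fin r) (Fin r) ℂ)ˣ,
      MvPolynomial.eval (fun q : ι × Fin r × Fin r => (T.1 * Z y q.1 * T⁻¹.1) q.2.1 q.2.2) F
        = 0 := by
    intro y hy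
    apply Rat_zero
    · apply eval_mem (Rat r) (fun (q : ι × Fin r × Fin r) (T : (Matrix (Fin r) (Fin r) ℂ)ˣ) =>
        (T.1 * Z y q.1 * T⁻¹.1) q.2.1 q.2.2)
      intro q
      have : (fun T : (Matrix (Fin r) (Fin r) ℂ)ˣ => (T.1 * Z y q.1 * T⁻¹.1) q.2.1 q.2.2) =
          ∑ b, ∑ a, (fun T : (Matrix (Fin r) (Fin r) ℂ)ˣ => T.1 q.2.1 a) *
            (algebraMap ℂ _ (Z y q.1 a b)) *
            (fun T : (Matrix (Fin r) (Fin r) ℂ)ˣ => T⁻¹.1 b q.2.2) := by
        ext T
        simp only [Matrix.mul_apply, Finset.sum_mul, Finset.sum_apply, Pi.mul_apply]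
        rfl
      rw [this]
      refine Subalgebra.sum_mem _ fun b _ => Subalgebra.sum_mem _ fun a _ => ?_
      exact Subalgebra.mul_mem _ (Subalgebra.mul_mem _ (Rat_entry _ _)
        (Subalgebra.algebraMap_mem _ _)) (Rat_inv_entry _ _)
    · rintro T ⟨c, S, hT⟩
      have hTi : T⁻¹.1 = (c : ℂ)⁻¹ • S⁻¹.1.map (Int.castRingHom ℂ) := by
        have h2 : T.1 * ((c : ℂ)⁻¹ • S⁻¹.1.map (Int.castRingHom ℂ)) = 1 := by
          rw [hT, smul_mul_smul_comm, mul_inv_cancel₀ c.ne_zero, one_smul, ← Matrix.map_mul]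
          have : S.1 * S⁻¹.1 = 1 := by
            have := congrArg Subtype.val (mul_inv_cancel S)
            exact this
          rw [this]
          ext i j
          simp [Matrix.one_apply]
        calc T⁻¹.1 = T⁻¹.1 * (T.1 * ((c : ℂ)⁻¹ • S⁻¹.1.map (Int.castRingHom ℂ))) := by
              rw [h2, mul_one]
          _ = _ := by
              rw [← mul_assoc, ← Units.val_mul, inv_mul_cancel, Units.val_one, one_mul]
      have := h S y hy
      rw [← this]
      congr 2
      ext q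
      rw [hT, hTi, smul_mul_assoc, smul_mul_smul_comm, mul_inv_cancel₀ c.ne_zero, one_smul]
  exact multi_Lau (fun y => MvPolynomial.eval
    (fun q : ι × Fin r × Fin r => (T.1 * Z y q.1 * T⁻¹.1) q.2.1 q.2.2) F) (by
      intro y i
      apply eval_mem Lau (fun (q : ι × Fin r × Fin r) (c : ℂˣ) =>
        (T.1 * Z (Function.update y i c) q.1 * T⁻¹.1) q.2.1 q.2.2)
      intro q
      have : (fun c : ℂˣ => (T.1 * Z (Function.update y i c) q.1 * T⁻¹.1) q.2.1 q.2.2) =
          ∑ b, ∑ a, (algebraMap ℂ _ (T.1 q.2.1 a)) *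
            (fun c : ℂˣ => Z (Function.update y i c) q.1 a b) *
            (algebraMap ℂ _ (T⁻¹.1 b q.2.2)) := by
        ext c
        simp only [Matrix.mul_apply, Finset.sum_mul, Finset.sum_apply, Pi.mul_apply]
        rfl
      rw [this]
      refine Subalgebra.sum_mem _ fun b _ => Subalgebra.sum_mem _ fun a _ => ?_
      exact Subalgebra.mul_mem _ (Subalgebra.mul_mem _ (Subalgebra.algebraMap_mem _ _)
        (hZ _ _ _ _ _)) (Subalgebra.algebraMap_mem _ _)) U hU (fun y hy => h1 y hy T) y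

end Vale.Agent.P002.H306
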