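import Vale.Agent.P002.H306.Bez

/-!
# Finite groups of matrices of bounded order are conjugate to groups of integral matrices over a
uniform number field
-/

namespace Vale.Agent.P002.H306

open NumberField Matrix MvPolynomial

/-- the field of algebraic numbers in `ℂ` -/
noncomputable abbrev KK : IntermediateField ℚ ℂ := algebraicClosure ℚ ℂ

instance : IsAlgClosed KK := (algebraicClosure.isAlgClosure ℚ ℂ).isAlgClosed

/-- A complex polynomial vanishing at the algebraic points of a variety over the field of algebraic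
numbers vanishes at all its complex points. -/
theorem ns {σ : Type*} [Finite σ] (I : Ideal (MvPolynomial σ KK)) (f : MvPolynomial σ ℂ)
    (h : ∀ x ∈ zeroLocus KK I, eval (fun i => ((x i : KK) : ℂ)) f = 0) :
    ∀ x ∈ zeroLocus ℂ I, eval x f = 0 := by
  classical
  intro x hx
  let c := Module.Basis.ofVectorSpace KK ℂ
  let F : _ → MvPolynomial σ KK := fun j =>
    ∑ m ∈ f.support, monomial m (c.repr (coeff m f) j)
  have h1 : ∀ j, F j ∈ vanishingIdeal KK (zeroLocus KK I) := by
    intro j y hy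
    have h2 : aeval y (F j) = c.repr (eval (fun i => ((y i : KK) : ℂ)) f) j := by
      rw [eval_eq, map_sum, map_sum, Finsupp.finsetSum_apply]
      refine Finset.sum_congr rfl fun m _ => ?_
      have : coeff m f * ∏ i ∈ m.support, ((y i : KK) : ℂ) ^ m i =
          (∏ i ∈ m.support, (y i) ^ m i : KK) • coeff m f := by
        rw [Algebra.smul_def, mul_comm]
        congr 1
        simp
      rw [this, map_smul, Finsupp.smul_apply, aeval_monomial, Finsupp.prod, smul_eq_mul, mul_comm]
      rfl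
    rw [h2, h y hy, map_zero, Finsupp.zero_apply]
  have h3 : ∀ j, aeval x (F j) = 0 := by
    intro j
    have := h1 j
    rw [vanishingIdeal_zeroLocus_eq_radical] at this
    exact radical_le_vanishingIdeal_zeroLocus (K := ℂ) I this x hx
  let T := f.support.biUnion fun m => (c.repr (coeff m f)).support
  have h4 : ∀ m ∈ f.support, coeff m f = ∑ j ∈ T, (c.repr (coeff m f) j) • c j := by
    intro m hm
    conv_lhs => rw [← c.linearCombination_repr (coeff m f)]
    rw [Finsupp.linearCombination_apply, Finsupp.sum]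
    refine Finset.sum_subset ?_ ?_
    · intro j hj
      exact Finset.mem_biUnion.2 ⟨m, hm, hj⟩
    · intro j _ hj
      rw [Finsupp.notMem_support_iff.1 hj, zero_smul]
  have h5 : eval x f = ∑ j ∈ T, c j * aeval x (F j) := by
    rw [eval_eq]
    have : ∀ j, aeval x (F j) = ∑ m ∈ f.support,
        ((c.repr (coeff m f) j : KK) : ℂ) * ∏ i ∈ m.support, x i ^ m i := by
      intro j
      rw [map_sum]
      refine Finset.sum_congr rfl fun m _ => ?_
      rw [aeval_monomial]
      rfl
    simp_rw [this, Finset.mul_sum]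
    rw [Finset.sum_comm]
    refine Finset.sum_congr rfl fun m hm => ?_
    conv_lhs => rw [h4 m hm]
    rw [Finset.sum_mul]
    refine Finset.sum_congr rfl fun j _ => ?_
    rw [Algebra.smul_def]
    change ((c.repr (coeff m f) j : KK) : ℂ) * c j * _ = _
    ring
  rw [h5]
  refine Finset.sum_eq_zero fun j _ => ?_
  rw [h3, mul_zero]

/-- integral elements of `L` -/
noncomputable def OI (L : IntermediateField ℚ ℂ) : Subring ℂ :=
  L.toSubfield.toSubring ⊓ (integralClosure ℤ ℂ).toSubring

theorem mem_OI {L : IntermediateField ℚ ℂ} {z : ℂ} : z ∈ OI L ↔ z ∈ L ∧ IsIntegral ℤ z := Iff.rfl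

theorem OI_mono {L L' : IntermediateField ℚ ℂ} (h : L ≤ L') {z : ℂ} (hz : z ∈ OI L) : z ∈ OI L' :=
  ⟨h hz.1, hz.2⟩

theorem mem_OI_iff {L : IntermediateField ℚ ℂ} {z : ℂ} : z ∈ OI L ↔ ∃ a : 𝓞 L, z = a.1.1 := by
  constructor
  · rintro ⟨h1, h2⟩
    exact ⟨⟨⟨z, h1⟩, (isIntegral_algebraMap_iff (algebraMap L ℂ).injective).1 h2⟩, rfl⟩
  · rintro ⟨a, rfl⟩
    exact ⟨a.1.2, (isIntegral_algebraMap_iff (algebraMap L ℂ).injective).2 a.2⟩

section

variable {G : Type} [Group G] [Fintype G] {r : ℕ}

/-- the equations of the variety of representations -/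
noncomputable def repI (G : Type) [Group G] (r : ℕ) : Ideal (MvPolynomial (G × Fin r × Fin r) KK) :=
  Ideal.span (Set.range (fun q : G × G × Fin r × Fin r =>
      (X (q.1 * q.2.1, q.2.2.1, q.2.2.2) -
        ∑ k, X (q.1, q.2.2.1, k) * X (q.2.1, k, q.2.2.2) : MvPolynomial _ KK)) ∪
    Set.range (fun q : Fin r × Fin r => (X (1, q.1, q.2) - if q.1 = q.2 then 1 else 0 :
      MvPolynomial _ KK)))

/-- a point as a family of matrices -/
def pm {A : Type*} (x : G × Fin r × Fin r → A) (g : G) : Matrix (Fin r) (Fin r) A :=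
  Matrix.of fun i j => x (g, i, j)

omit [Fintype G] in
theorem mem_repI {A : Type*} [Field A] [Algebra KK A] (x : G × Fin r × Fin r → A) :
    x ∈ zeroLocus A (repI G r) ↔ (∀ g h, pm x (g * h) = pm x g * pm x h) ∧ pm x (1 : G) = 1 := by
  rw [repI, zeroLocus_span]
  constructor
  · intro h
    constructor
    · intro a b
      ext i j
      have := h _ (Or.inl ⟨(a, b, i, j), rfl⟩)
      simp only [map_sub, map_sum, map_mul, aeval_X, sub_eq_zero] at this
      rw [Matrix.mul_apply]
      exact this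
    · ext i j
      have := h _ (Or.inr ⟨(i, j), rfl⟩)
      rw [map_sub, aeval_X, sub_eq_zero] at this
      change x _ = _
      rw [this, Matrix.one_apply]
      split_ifs <;> simp
  · rintro ⟨h1, h2⟩ p (⟨⟨a, b, i, j⟩, rfl⟩ | ⟨⟨i, j⟩, rfl⟩)
    · simp only [map_sub, map_sum, map_mul, aeval_X, sub_eq_zero]
      have := congrFun (congrFun (h1 a b) i) j
      rw [Matrix.mul_apply] at this
      exact this
    · rw [map_sub, aeval_X, sub_eq_zero]
      have := congrFun (congrFun h2 i) j
      change x _ = _ at this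
      rw [this, Matrix.one_apply]
      split_ifs <;> simp

/-- the representation of a point -/
def toRep {x : G × Fin r × Fin r → ℂ} (hx : x ∈ zeroLocus ℂ (repI G r)) :
    G →* Matrix (Fin r) (Fin r) ℂ where
  toFun := pm x
  map_one' := ((mem_repI x).1 hx).2
  map_mul' := ((mem_repI x).1 hx).1

theorem fin1 (G : Type) [Group G] [Fintype G] (r : ℕ) :
    ∃ L : IntermediateField ℚ ℂ, FiniteDimensional ℚ L ∧
      ∀ σ : G →* Matrix (Fin r) (Fin r) ℂ, ∃ P Q : Matrix (Fin r) (Fin r) ℂ, P * Q = 1 ∧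
        Q * P = 1 ∧ ∀ g i j, (Q * σ g * P) i j ∈ OI L := by
  classical
  -- polynomials `p_τ`
  let p : (G × Fin r × Fin r → KK) → MvPolynomial (G × Fin r × Fin r) KK := fun τ =>
    (∑ g : G, (pm τ g).map C * pm (X : _ → MvPolynomial (G × Fin r × Fin r) KK) g⁻¹).det
  obtain ⟨S, hS, hspan⟩ := (Submodule.fg_span_iff_fg_span_finset_subset
    (p '' zeroLocus KK (repI G r))).1 (IsNoetherian.noetherian (Ideal.span
      (p '' zeroLocus KK (repI G r))))
  have hex : ∀ q : S, ∃ τ ∈ zeroLocus KK (repI G r), p τ = q.1 := fun q => hS q.2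
  choose τ hτ hpτ using hex
  -- the points `τ` as complex points
  have hτC : ∀ q : S, (fun a => ((τ q a : KK) : ℂ)) ∈ zeroLocus ℂ (repI G r) := by
    intro q f hf
    have h1 := hτ q f hf
    have h2 : aeval (fun a => ((τ q a : KK) : ℂ)) f = algebraMap KK ℂ (aeval (τ q) f) := by
      rw [← MvPolynomial.aeval_algebraMap_apply]
      rfl
    rw [h2, h1, map_zero]
  have hci : ∀ q : S, _ := fun q => conj_integral (toRep (hτC q)) (fun g i j => by
    change IsIntegral ℚ ((τ q (g, i, j) : KK) : ℂ)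
    exact (τ q (g, i, j)).2)
  choose P Q hPQ hQP hint using hci
  let s : Set ℂ := Set.range fun a : S × G × Fin r × Fin r =>
    (Q a.1 * toRep (hτC a.1) a.2.1 * P a.1) a.2.2.1 a.2.2.2
  refine ⟨IntermediateField.adjoin ℚ s, exists_nf s (Set.finite_range _) (by
    rintro _ ⟨a, rfl⟩
    exact (hint a.1 a.2.1 a.2.2.1 a.2.2.2).tower_top), ?_⟩
  intro σ
  -- the intertwiner
  have hσ : ∃ q : S, (∑ g : G, toRep (hτC q) g * σ g⁻¹).det ≠ 0 := by
    by_contra hcon
    push Not at hcon
    -- all `p_τ` vanish at `σ`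
    let xσ : G × Fin r × Fin r → ℂ := fun a => σ a.1 a.2.1 a.2.2
    have hpev : ∀ t : G × Fin r × Fin r → KK, aeval xσ (p t) =
        (∑ g : G, pm (fun a => ((t a : KK) : ℂ)) g * σ g⁻¹).det := by
      intro t
      change (aeval xσ : MvPolynomial (G × Fin r × Fin r) KK →ₐ[KK] ℂ).toRingHom _ = _
      rw [RingHom.map_det]
      congr 1
      rw [map_sum]
      refine Finset.sum_congr rfl fun g _ => ?_
      rw [map_mul]
      congr 1
      · ext i j
        simp [pm]
      · ext i j
        simp [pm, xσ]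
    have h1 : ∀ t ∈ zeroLocus KK (repI G r), aeval xσ (p t) = 0 := by
      intro t ht
      have h2 : p t ∈ Ideal.span (p '' zeroLocus KK (repI G r)) :=
        Ideal.subset_span ⟨t, ht, rfl⟩
      have h3 : Ideal.span (p '' zeroLocus KK (repI G r)) ≤
          RingHom.ker (aeval xσ : MvPolynomial (G × Fin r × Fin r) KK →ₐ[KK] ℂ) := by
        rw [Ideal.span, hspan]
        rw [Submodule.span_le]
        intro f hf
        have : f = p (τ ⟨f, hf⟩) := (hpτ ⟨f, hf⟩).symm
        rw [this]
        change aeval xσ _ = 0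
        rw [hpev]
        exact hcon ⟨f, hf⟩
      exact h3 h2
    let f : MvPolynomial (G × Fin r × Fin r) ℂ :=
      (∑ g : G, pm (X : _ → MvPolynomial (G × Fin r × Fin r) ℂ) g * (σ g⁻¹).map C).det
    have hfev : ∀ t : G × Fin r × Fin r → ℂ, eval t f = (∑ g : G, pm t g * σ g⁻¹).det := by
      intro t
      rw [RingHom.map_det]
      congr 1
      rw [map_sum]
      refine Finset.sum_congr rfl fun g _ => ?_
      rw [map_mul]
      congr 1
      · ext i j
        simp [pm]
      · ext i j
        simp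
    have h4 := ns (repI G r) f (by
      intro t ht
      rw [hfev, ← hpev]
      exact h1 t ht) xσ (by
      rw [mem_repI]
      refine ⟨fun g h => ?_, ?_⟩
      · change σ (g * h) = σ g * σ h
        exact map_mul _ _ _
      · change σ 1 = 1
        exact map_one _)
    rw [hfev] at h4
    have h5 : ∀ g, pm xσ g * σ g⁻¹ = 1 := by
      intro g
      change σ g * σ g⁻¹ = 1
      rw [← map_mul, mul_inv_cancel, map_one]
    simp_rw [h5] at h4
    rw [Finset.sum_const, Finset.card_univ, nsmul_eq_mul, mul_one] at h4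
    have h6 : ((Fintype.card G : Matrix (Fin r) (Fin r) ℂ)).det = (Fintype.card G : ℂ) ^ r := by
      rw [← Matrix.diagonal_natCast, Matrix.det_diagonal]
      simp
    rw [h6] at h4
    exact pow_ne_zero r (by exact_mod_cast Fintype.card_ne_zero) h4
  obtain ⟨q, hq⟩ := hσ
  set U := ∑ g : G, toRep (hτC q) g * σ g⁻¹ with hU
  have hUu : IsUnit U.det := isUnit_iff_ne_zero.2 hq
  have hint' : ∀ h, toRep (hτC q) h * U = U * σ h := by
    intro h
    rw [hU, Finset.mul_sum, Finset.sum_mul, ← Equiv.sum_comp (Equiv.mulLeft h⁻¹)]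
    refine Finset.sum_congr rfl fun g _ => ?_
    rw [Equiv.coe_mulLeft, ← mul_assoc, ← map_mul, mul_inv_cancel_left, _root_.mul_inv_rev, inv_inv,
      map_mul, mul_assoc]
  refine ⟨U⁻¹ * P q, Q q * U, ?_, ?_, ?_⟩
  · rw [Matrix.mul_assoc, ← Matrix.mul_assoc (P q), hPQ, Matrix.one_mul,
      Matrix.nonsing_inv_mul _ hUu]
  · rw [Matrix.mul_assoc, ← Matrix.mul_assoc U, Matrix.mul_nonsing_inv _ hUu, Matrix.one_mul, hQP]
  · intro g i j
    have : Q q * U * σ g * (U⁻¹ * P q) = Q q * toRep (hτC q) g * P q := by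
      rw [Matrix.mul_assoc (Q q) U, ← hint', Matrix.mul_assoc, Matrix.mul_assoc _ U,
        ← Matrix.mul_assoc U, Matrix.mul_nonsing_inv _ hUu, Matrix.one_mul, ← Matrix.mul_assoc]
    rw [this]
    exact ⟨IntermediateField.subset_adjoin _ _ ⟨(q, g, i, j), rfl⟩, hint q g i j⟩

end

instance finGroup (n : ℕ) : Finite (Group (Fin n)) :=
  Finite.of_injective (fun g : Group (Fin n) => g.mul) fun _ _ h => Group.ext h

theorem fin2 (r B : ℕ) : ∃ L : IntermediateField ℚ ℂ, FiniteDimensional ℚ L ∧
    ∀ (G : Type) [Group G] [Finite G], Nat.card G ≤ B → ∀ σ : G →* Matrix (Fin r) (Fin r) ℂ,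
      ∃ P Q : Matrix (Fin r) (Fin r) ℂ, P * Q = 1 ∧ Q * P = 1 ∧
        ∀ g i j, (Q * σ g * P) i j ∈ OI L := by
  have h1 : ∀ p : (n : Fin (B + 1)) × Group (Fin n), _ := fun p =>
    @fin1 (Fin p.1) p.2 _ r
  choose L hL hLp using h1
  refine ⟨⨆ p, L p, IntermediateField.finiteDimensional_iSup_of_finite, ?_⟩
  intro G _ _ hG σ
  let e : Fin (Nat.card G) ≃ G := (Finite.equivFin G).symm
  let gr : Group (Fin (Nat.card G)) := e.group
  let p : (n : Fin (B + 1)) × Group (Fin n) := ⟨⟨Nat.card G, Nat.lt_succ_of_le hG⟩, gr⟩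
  obtain ⟨P, Q, h1, h2, h3⟩ := hLp p ⟨⟨fun x => σ (e x), by
    change σ (e (e.symm 1)) = 1
    rw [e.apply_symm_apply, map_one]⟩, fun x y => by
    change σ (e (e.symm (e x * e y))) = σ (e x) * σ (e y)
    rw [e.apply_symm_apply, map_mul]⟩
  refine ⟨P, Q, h1, h2, fun g i j => ?_⟩
  have := h3 (e.symm g) i j
  change (Q * σ (e (e.symm g)) * P) i j ∈ _ at this
  rw [e.apply_symm_apply] at this
  exact OI_mono (le_iSup L p) this

end Vale.Agent.P002.H306
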