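import Vale.Agent.P002.H306.Rep
import Vale.Agent.P002.H306.Fin
import Vale.Agent.P002.H306.Dens

/-!
# The ingredients of the deformation of a representation of a virtually abelian group
-/

namespace Vale.Agent.P002.H306

open Matrix Vale.Agent.P002R.Orb

section card

variable {E : Type*} [Group E]

theorem card_phi {l M : ℕ} (hM : 0 < M) {Q : Type*} [Finite Q] (D : (Fin l → ℂˣ) →* E) (w : Q → E)
    (Φ : Subgroup E) (hΦ : ∀ g, g ∈ Φ ↔ ∃ u q, u ^ M = 1 ∧ g = D u * w q) :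
    Finite Φ ∧ Nat.card Φ ≤ M ^ l * Nat.card Q := by
  have : NeZero M := ⟨hM.ne'⟩
  let f : (Fin l → rootsOfUnity M ℂ) × Q → Φ := fun a =>
    ⟨D (fun x => (a.1 x : ℂˣ)) * w a.2, (hΦ _).2 ⟨_, _, by
      funext x
      have := (mem_rootsOfUnity M (a.1 x : ℂˣ)).1 (a.1 x).2
      simpa using this, rfl⟩⟩
  have hf : Function.Surjective f := by
    rintro ⟨g, hg⟩
    obtain ⟨u, q, hu, rfl⟩ := (hΦ g).1 hg
    refine ⟨(fun x => ⟨u x, ?_⟩, q), ?_⟩
    · rw [mem_rootsOfUnity]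
      exact congrFun hu x
    · rfl
  refine ⟨Finite.of_surjective f hf, (Nat.card_le_card_of_surjective f hf).trans ?_⟩
  rw [Nat.card_prod]
  refine Nat.mul_le_mul_right _ ?_
  rw [Nat.card_fun, Nat.card_eq_fintype_card (α := Fin l), Fintype.card_fin]
  exact Nat.pow_le_pow_left (card_rootsOfUnity ℂ M) _

end card

section integral

variable {r : ℕ} {L : IntermediateField ℚ ℂ}

/-- integral matrices -/
def IM (L : IntermediateField ℚ ℂ) (A : Matrix (Fin r) (Fin r) ℂ) : Prop := ∀ i j, A i j ∈ OI L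

theorem IM.add {A B : Matrix (Fin r) (Fin r) ℂ} (hA : IM L A) (hB : IM L B) : IM L (A + B) :=
  fun i j => (OI L).add_mem (hA i j) (hB i j)

theorem IM.sub {A B : Matrix (Fin r) (Fin r) ℂ} (hA : IM L A) (hB : IM L B) : IM L (A - B) :=
  fun i j => (OI L).sub_mem (hA i j) (hB i j)

theorem IM.mul {A B : Matrix (Fin r) (Fin r) ℂ} (hA : IM L A) (hB : IM L B) : IM L (A * B) :=
  fun i j => by
    rw [Matrix.mul_apply]
    exact (OI L).sum_mem fun k _ => (OI L).mul_mem (hA i k) (hB k j)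

theorem IM.sum {κ : Type*} {s : Finset κ} {A : κ → Matrix (Fin r) (Fin r) ℂ}
    (hA : ∀ k ∈ s, IM L (A k)) : IM L (∑ k ∈ s, A k) := fun i j => by
  rw [Matrix.sum_apply]
  exact (OI L).sum_mem fun k hk => hA k hk i j

theorem IM.smul {a : ℂ} {A : Matrix (Fin r) (Fin r) ℂ} (ha : a ∈ OI L) (hA : IM L A) :
    IM L (a • A) := fun i j => (OI L).mul_mem ha (hA i j)

theorem IM.one : IM L (1 : Matrix (Fin r) (Fin r) ℂ) := fun i j => by
  rw [Matrix.one_apply]
  split_ifs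
  · exact (OI L).one_mem
  · exact (OI L).zero_mem

theorem IM.int (A : Matrix (Fin r) (Fin r) ℤ) : IM L (A.map (Int.castRingHom ℂ)) := fun i j =>
  intCast_mem (OI L) (A i j)

theorem int_D {l M : ℕ} (hM : 2 ≤ M) (lab : Fin r → Fin l)
    (Φ : Subgroup (Matrix (Fin r) (Fin r) ℂ)ˣ) (hΦ : ∀ u : Fin l → ℂˣ, u ^ M = 1 → Dg lab u ∈ Φ)
    (P Q : Matrix (Fin r) (Fin r) ℂ) (hQP : Q * P = 1)
    (hint : ∀ g ∈ Φ, IM L (Q * g.1 * P)) (c : Fin l → ℂˣ)
    (hc : ∀ x, ∃ a ∈ OI L, (c x : ℂ) = 1 + M * a) : IM L (Q * (Dg lab c).1 * P) := by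
  classical
  have hM0 : M ≠ 0 := by omega
  have hζ := Complex.isPrimitiveRoot_exp M hM0
  obtain ⟨ζ, hζ'⟩ : ∃ ζ : ℂˣ, IsPrimitiveRoot ζ M :=
    ⟨(hζ.isUnit hM0).unit, IsPrimitiveRoot.coe_units_iff.1 (by simpa using hζ)⟩
  have hζM : ζ ^ M = 1 := hζ'.pow_eq_one
  have hsum : ∑ j ∈ Finset.range M, ((ζ ^ j : ℂˣ) : ℂ) = 0 := by
    have := (IsPrimitiveRoot.coe_units_iff.2 hζ').geom_sum_eq_zero (by omega)
    simpa using this
  have hMO : (M : ℂ) ∈ OI L := natCast_mem (OI L) M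
  have hB : ∀ x, IM L (Q * (diagonal fun i => if lab i = x then (M : ℂ) else 0) * P) := by
    intro x
    have h1 : (diagonal fun i => if lab i = x then (M : ℂ) else 0) =
        (M : ℂ) • (1 : Matrix (Fin r) (Fin r) ℂ) -
          ∑ j ∈ Finset.range M, (Dg lab (Function.update 1 x (ζ ^ j))).1 := by
      ext i k
      rw [Matrix.sub_apply, Matrix.smul_apply, Matrix.sum_apply]
      by_cases hik : i = k
      · subst hik
        simp only [Dg_val, Matrix.diagonal_apply_eq, Matrix.one_apply_eq, smul_eq_mul, mul_one]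
        by_cases hx : lab i = x
        · rw [if_pos hx, hx]
          simp only [Function.update_self]
          rw [hsum, sub_zero]
        · rw [if_neg hx]
          simp [Function.update_of_ne hx]
      · simp [Dg_val, Matrix.diagonal_apply_ne _ hik, Matrix.one_apply_ne hik]
    rw [h1, Matrix.mul_sub, Matrix.sub_mul, Matrix.mul_smul, Matrix.smul_mul, Matrix.mul_one, hQP,
      Finset.mul_sum, Finset.sum_mul]
    refine (IM.smul hMO IM.one).sub (IM.sum fun j _ => hint _ (hΦ _ ?_))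
    funext y
    by_cases hy : y = x
    · subst hy
      simp only [Pi.pow_apply, Function.update_self, Pi.one_apply]
      rw [← pow_mul, mul_comm, pow_mul, hζM, one_pow]
    · simp [Function.update_of_ne hy]
  choose a ha hca using hc
  have h2 : (Dg lab c).1 = 1 + ∑ x, a x • (diagonal fun i => if lab i = x then (M : ℂ) else 0) := by
    ext i k
    rw [Matrix.add_apply, Matrix.sum_apply]
    by_cases hik : i = k
    · subst hik
      simp only [Dg_val, Matrix.diagonal_apply_eq, Matrix.one_apply_eq, Matrix.smul_apply,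
        smul_eq_mul, mul_ite, mul_zero]
      rw [Finset.sum_ite_eq]
      simp [hca, mul_comm]
    · simp [Dg_val, Matrix.diagonal_apply_ne _ hik, Matrix.one_apply_ne hik]
  rw [h2, Matrix.mul_add, Matrix.add_mul, Matrix.mul_one, hQP, Finset.mul_sum, Finset.sum_mul]
  refine IM.one.add (IM.sum fun x _ => ?_)
  rw [Matrix.mul_smul, Matrix.smul_mul]
  exact IM.smul (ha x) (hB x)

/-- units congruent to one -/
def UU (L : IntermediateField ℚ ℂ) (M : ℕ) : Subgroup ℂˣ where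
  carrier := {c | (∃ a ∈ OI L, (c : ℂ) = 1 + M * a) ∧ ∃ a ∈ OI L, ((c⁻¹ : ℂˣ) : ℂ) = 1 + M * a}
  mul_mem' := by
    rintro c d ⟨⟨a, ha, hca⟩, ⟨a', ha', hca'⟩⟩ ⟨⟨b, hb, hdb⟩, ⟨b', hb', hdb'⟩⟩
    have hMO : (M : ℂ) ∈ OI L := natCast_mem (OI L) M
    refine ⟨⟨a + b + M * (a * b), ?_, ?_⟩, ⟨a' + b' + M * (a' * b'), ?_, ?_⟩⟩
    · exact (OI L).add_mem ((OI L).add_mem ha hb) ((OI L).mul_mem hMO ((OI L).mul_mem ha hb))
    · rw [Units.val_mul, hca, hdb]; ring
    · exact (OI L).add_mem ((OI L).add_mem ha' hb') ((OI L).mul_mem hMO ((OI L).mul_mem ha' hb'))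
    · rw [_root_.mul_inv_rev, Units.val_mul, hca', hdb']; ring
  one_mem' := ⟨⟨0, (OI L).zero_mem, by simp⟩, ⟨0, (OI L).zero_mem, by simp⟩⟩
  inv_mem' := by
    rintro c ⟨h1, h2⟩
    refine ⟨h2, ?_⟩
    rwa [inv_inv]

theorem exists_v (M : ℕ) (hM : 0 < M) : ∃ v : ℂ, IsIntegral ℤ v ∧
    ∀ L : IntermediateField ℚ ℂ, v ∈ L → (UU L M : Set ℂˣ).Infinite := by
  let x : ℝ := (M + Real.sqrt (M ^ 2 + 4)) / 2
  have hM' : (0 : ℝ) < M := by exact_mod_cast hM
  have hx0 : 0 < x := by positivity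
  have hx : x ^ 2 = 1 + M * x := by
    have := Real.sq_sqrt (show (0 : ℝ) ≤ (M : ℝ) ^ 2 + 4 by positivity)
    simp only [x]
    nlinarith [this]
  let v : ℂ := (x : ℂ)
  have hv : v ^ 2 = 1 + M * v := by
    have := congrArg (fun t : ℝ => (t : ℂ)) hx
    simpa [v] using this
  have hint : IsIntegral ℤ v := by
    refine ⟨Polynomial.X ^ 2 - (Polynomial.C (M : ℤ) * Polynomial.X + Polynomial.C 1), ?_, ?_⟩
    · apply Polynomial.monic_X_pow_sub
      exact (Polynomial.degree_linear_le).trans_lt (by norm_num)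
    · simp only [Polynomial.eval₂_sub, Polynomial.eval₂_add, Polynomial.eval₂_mul,
        Polynomial.eval₂_pow, Polynomial.eval₂_X, Polynomial.eval₂_C]
      rw [hv]
      simp
      ring
  refine ⟨v, hint, fun L hL => ?_⟩
  have hvO : v ∈ OI L := ⟨hL, hint⟩
  have hMO : (M : ℂ) ∈ OI L := natCast_mem (OI L) M
  have hmul : (1 + M * v) * (1 + M * (M - v)) = 1 := by
    linear_combination (-(M : ℂ) ^ 2) * hv
  let u : ℂˣ := ⟨1 + M * v, 1 + M * (M - v), hmul, by rw [mul_comm]; exact hmul⟩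
  have hu : u ∈ UU L M := ⟨⟨v, hvO, rfl⟩, ⟨M - v, (OI L).sub_mem hMO hvO, rfl⟩⟩
  have hun : 1 < ‖(u : ℂ)‖ := by
    have h1 : (u : ℂ) = ((1 + M * x : ℝ) : ℂ) := by
      change 1 + (M : ℂ) * v = _
      simp [v]
    rw [h1, Complex.norm_real, Real.norm_eq_abs]
    have h2 : 0 < (M : ℝ) * x := by positivity
    rw [abs_of_pos (by linarith)]
    linarith
  refine Set.infinite_of_injective_forall_mem (f := fun n : ℕ => u ^ n) ?_ ?_
  · intro a b hab
    have h1 : ‖(u : ℂ)‖ ^ a = ‖(u : ℂ)‖ ^ b := by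
      have := congrArg (fun t : ℂˣ => ‖(t : ℂ)‖) hab
      simpa using this
    exact pow_right_injective₀ (by linarith) hun.ne' h1
  · intro n
    exact (UU L M).pow_mem hu n

end integral

end Vale.Agent.P002.H306
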