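import Vale.Agent.P002.H306.PerX

/-!
# Commuting subgroups of bounded index in semisimple virtually abelian linear groups
-/

namespace Vale.Agent.P002.H306

open Matrix Vale.Agent.P002R.Orb

open scoped commutatorElement

variable {ι : Type} {r : ℕ}

/-- A bound for the index from a separating map. -/
theorem index_le_of_map {Γ β : Type*} [Group Γ] [Finite β] (K : Subgroup Γ) (f : Γ → β)
    (h : ∀ a b, f a = f b → a⁻¹ * b ∈ K) : K.index ≠ 0 ∧ K.index ≤ Nat.card β := by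
  have hinj : Function.Injective fun q : Γ ⧸ K => f q.out := by
    intro p q hpq
    have h1 := h _ _ hpq
    rw [← QuotientGroup.eq] at h1
    simpa using h1
  have hfin : Finite (Γ ⧸ K) := Finite.of_injective _ hinj
  constructor
  · rw [Subgroup.index]
    exact Nat.card_pos.ne'
  · exact Nat.card_le_card_of_injective _ hinj

/-- Jordan's property for finite linear groups of degree `r`. -/
def JordanBound (r J : ℕ) : Prop :=
  ∀ Φ : Subgroup (Matrix (Fin r) (Fin r) ℂ)ˣ, Finite Φ → ∃ A ≤ Φ,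
    (∀ a ∈ A, ∀ b ∈ A, a * b = b * a) ∧ A.relIndex Φ ≤ J

theorem comm_index {J : ℕ} (hJ : JordanBound r J) (R : Set (FreeGroup ι))
    (H : Subgroup (FreeGroup ι)) [H.Normal] [H.FiniteIndex]
    (X : ι → SpecialLinearGroup (Fin r) ℂ) (hX : X ∈ YNone R r)
    (hH : ∀ a ∈ H, ∀ b ∈ H, mh X a * mh X b = mh X b * mh X a) :
    ∃ K : Subgroup (FreeGroup ι), K.index ≠ 0 ∧ K.index ≤ r.factorial * J ∧
      ∀ a ∈ K, ∀ b ∈ K, mh X a * mh X b = mh X b * mh X a := by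
  let R' : Set (FreeGroup ι) := R ∪ {c | ∃ a ∈ H, ∃ b ∈ H, c = ⁅a, b⁆}
  have hX' : X ∈ YNone R' r := by
    rw [mem_YNone_iff] at hX ⊢
    refine ⟨?_, hX.2⟩
    rintro w (hw | ⟨a, ha, b, hb, rfl⟩)
    · exact hX.1 w hw
    · have h1 : FreeGroup.lift X ⁅a, b⁆ = 1 := by
        rw [map_commutatorElement, commutatorElement_eq_one_iff_mul_comm]
        exact Subtype.ext (hH a ha b hb)
      change (FreeGroup.lift X ⁅a, b⁆).1 = 1
      rw [h1]
      rfl
  obtain ⟨l, lab, α, P, σ, w, hl, hlab, hσ, hco, -, hw, hΦ⟩ := perX R' H (fun a ha b hb =>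
    Subgroup.subset_normalClosure (Or.inr ⟨a, ha, b, hb, rfl⟩)) X hX'
  obtain ⟨Φ, hΦm⟩ := hΦ H.index dvd_rfl
  obtain ⟨hfin, -⟩ := card_phi (Nat.pos_of_ne_zero Subgroup.FiniteIndex.index_ne_zero) (Dg lab) w
    Φ hΦm
  obtain ⟨A, hAΦ, hA, hAJ⟩ := hJ Φ hfin
  choose t ht using hw
  have hwΦ : ∀ γ : FreeGroup ι, w γ ∈ Φ := fun γ =>
    (hΦm _).2 ⟨1, _, one_pow _, by rw [map_one, one_mul]⟩
  -- elements of `K` commute with block scalars
  have hDcomm : ∀ γ, FreeGroup.lift α γ = 1 → ∀ u, σ γ * Dg lab u = Dg lab u * σ γ := by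
    intro γ hγ u
    have := hco γ u
    rw [hγ] at this
    simpa using this
  have hac : ∀ γ u a, FreeGroup.lift α γ = 1 → σ γ = Dg lab u * a →
      ∀ v, a * Dg lab v = Dg lab v * a := by
    intro γ u a h1 h2 v
    have h3 : a = Dg lab u⁻¹ * σ γ := by
      rw [h2, ← mul_assoc, ← map_mul, inv_mul_cancel, map_one, one_mul]
    rw [h3, mul_assoc, hDcomm γ h1, ← mul_assoc, ← map_mul, mul_comm, map_mul, mul_assoc]
  let K : Subgroup (FreeGroup ι) :=
    { carrier := {γ | FreeGroup.lift α γ = 1 ∧ ∃ u, ∃ a ∈ A, σ γ = Dg lab u * a}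
      mul_mem' := by
        rintro γ δ ⟨h1, u, a, ha, h2⟩ ⟨h3, v, b, hb, h4⟩
        refine ⟨by rw [map_mul, h1, h3, one_mul], u * v, a * b, A.mul_mem ha hb, ?_⟩
        rw [map_mul, h4, h2, map_mul, mul_assoc, ← mul_assoc a, hac γ u a h1 h2 v]
        simp only [mul_assoc]
      one_mem' := ⟨map_one _, 1, 1, A.one_mem, by simp⟩
      inv_mem' := by
        rintro γ ⟨h1, u, a, ha, h2⟩
        refine ⟨by rw [map_inv, h1, inv_one], u⁻¹, a⁻¹, A.inv_mem ha, ?_⟩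
        have h3 := hac γ u a h1 h2 u
        rw [map_inv, h2, map_inv, ← h3, _root_.mul_inv_rev, ← _root_.mul_inv_rev, h3,
          _root_.mul_inv_rev] }
  have hK : ∀ γ, γ ∈ K ↔ FreeGroup.lift α γ = 1 ∧ ∃ u, ∃ a ∈ A, σ γ = Dg lab u * a :=
    fun _ => Iff.rfl
  let A' := A.subgroupOf Φ
  have hAfin : Finite (Φ ⧸ A') := inferInstance
  obtain ⟨hi0, hi⟩ := index_le_of_map K
    (fun γ => (FreeGroup.lift α γ, ((⟨w γ, hwΦ γ⟩ : Φ) : Φ ⧸ A'))) (by
      intro γ δ h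
      have h1 : FreeGroup.lift α γ = FreeGroup.lift α δ := congrArg Prod.fst h
      have h2 : ((⟨w γ, hwΦ γ⟩ : Φ) : Φ ⧸ A') = ((⟨w δ, hwΦ δ⟩ : Φ) : Φ ⧸ A') :=
        congrArg Prod.snd h
      rw [QuotientGroup.eq] at h2
      have h3 : (w γ)⁻¹ * w δ ∈ A := h2
      rw [hK]
      refine ⟨by rw [map_mul, map_inv, h1, inv_mul_cancel], ?_⟩
      have h4 : w γ = (Dg lab (t γ))⁻¹ * σ γ := by rw [ht γ]; group
      -- the block scalars are normalized
      have h5 := hco γ⁻¹ ((t γ)⁻¹ * t δ)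
      refine ⟨fun x => ((t γ)⁻¹ * t δ) ((FreeGroup.lift α γ⁻¹)⁻¹ x), (w γ)⁻¹ * w δ, h3, ?_⟩
      have h6 : σ (γ⁻¹ * δ) = σ γ⁻¹ * Dg lab (t γ) * Dg lab ((t γ)⁻¹ * t δ) * w δ := by
        rw [map_mul, ht δ, map_mul, map_inv (Dg lab)]
        group
      have h7 : σ γ⁻¹ * Dg lab (t γ) = (w γ)⁻¹ := by
        rw [map_inv, ht γ]
        group
      have h8 : (w γ)⁻¹ * Dg lab ((t γ)⁻¹ * t δ) =
          Dg lab (fun x => ((t γ)⁻¹ * t δ) ((FreeGroup.lift α γ⁻¹)⁻¹ x)) * (w γ)⁻¹ := by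
        rw [← h7, mul_assoc, ← map_mul, mul_comm (t γ), map_mul, ← mul_assoc, h5, mul_assoc]
      rw [h6, h7, h8, mul_assoc])
  refine ⟨K, hi0, hi.trans ?_, ?_⟩
  · rw [Nat.card_prod]
    refine Nat.mul_le_mul ?_ hAJ
    rw [Nat.card_eq_fintype_card, Fintype.card_perm, Fintype.card_fin]
    exact Nat.factorial_le hl
  · rintro γ ⟨h1, u, a, ha, h2⟩ δ ⟨h3, v, b, hb, h4⟩
    have h5 : σ γ * σ δ = σ δ * σ γ := by
      rw [h2, h4]
      have e1 := hac γ u a h1 h2 v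
      have e2 := hac δ v b h3 h4 u
      have e3 := hA a ha b hb
      have e4 : Dg lab u * Dg lab v = Dg lab v * Dg lab u := by
        rw [← map_mul, mul_comm, map_mul]
      calc Dg lab u * a * (Dg lab v * b) = Dg lab u * (a * Dg lab v) * b := by
            simp only [mul_assoc]
        _ = Dg lab u * Dg lab v * (a * b) := by rw [e1]; simp only [mul_assoc]
        _ = Dg lab v * Dg lab u * (b * a) := by rw [e3, e4]
        _ = Dg lab v * (Dg lab u * b) * a := by simp only [mul_assoc]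
        _ = Dg lab v * b * (Dg lab u * a) := by rw [← e2]; simp only [mul_assoc]
    have h6 : P⁻¹.1 * P.1 = 1 := by rw [← Units.val_mul, inv_mul_cancel, Units.val_one]
    have h7 := congrArg Units.val h5
    rw [Units.val_mul, Units.val_mul] at h7
    rw [hσ, hσ]
    calc P.1 * (σ γ).1 * P⁻¹.1 * (P.1 * (σ δ).1 * P⁻¹.1)
        = P.1 * (σ γ).1 * (P⁻¹.1 * P.1) * (σ δ).1 * P⁻¹.1 := by simp only [mul_assoc]
      _ = P.1 * ((σ γ).1 * (σ δ).1) * P⁻¹.1 := by rw [h6, mul_one]; simp only [mul_assoc]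
      _ = P.1 * ((σ δ).1 * (σ γ).1) * P⁻¹.1 := by rw [h7]
      _ = P.1 * (σ δ).1 * (P⁻¹.1 * P.1) * (σ γ).1 * P⁻¹.1 := by
          rw [h6, mul_one]; simp only [mul_assoc]
      _ = P.1 * (σ δ).1 * P⁻¹.1 * (P.1 * (σ γ).1 * P⁻¹.1) := by simp only [mul_assoc]

end Vale.Agent.P002.H306
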