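import Vale.Agent.P002.H306.Step

/-!
# Density of integral representations of virtually abelian groups
-/

namespace Vale.Agent.P002.H306

open Matrix Vale.Agent.P002R.Orb

open scoped commutatorElement

theorem va_normal {ι : Type} [Fintype ι] [DecidableEq ι] (R : Set (FreeGroup ι))
    (H : Subgroup (FreeGroup ι)) [H.Normal] [H.FiniteIndex]
    (hab : ∀ a ∈ H, ∀ b ∈ H, ⁅a, b⁆ ∈ Subgroup.normalClosure R) (r : ℕ) :
    ∃ L : IntermediateField ℚ ℂ, FiniteDimensional ℚ L ∧ IsDenseRep L (YNone R r) := by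
  have hm0 : 0 < H.index := Nat.pos_of_ne_zero Subgroup.FiniteIndex.index_ne_zero
  let Dat := (l : Fin (r + 1)) × (Fin r → Fin l) × (ι → Equiv.Perm (Fin l))
  let N := (H.index ^ r * H.index).factorial
  have hst : ∀ d : Dat, _ := fun d => struct (AddSubgroup.closure (SS R N d.2.1 d.2.2))
  choose s e k g hk hK hb using hst
  let M := 2 * (H.index * ∏ d, k d)
  have hkpos : 0 < ∏ d, k d := Finset.prod_pos fun d _ => hk d
  have hMpos : 0 < H.index * ∏ d, k d := Nat.mul_pos hm0 hkpos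
  have hM2 : 2 ≤ M := by
    change 2 ≤ 2 * _
    omega
  obtain ⟨L₀, hL₀, hfin⟩ := fin2 r (M ^ r * H.index)
  obtain ⟨v, hv, hUU⟩ := exists_v M (by omega)
  have hfv : FiniteDimensional ℚ (IntermediateField.adjoin ℚ {v}) :=
    exists_nf _ (Set.finite_singleton _) (by
      rintro z rfl
      exact hv.tower_top)
  refine ⟨L₀ ⊔ IntermediateField.adjoin ℚ {v}, IntermediateField.finiteDimensional_sup _ _, ?_⟩
  intro F hF X hX
  obtain ⟨l, lab, α, P, σ, w, hl, hlab, hσ, hco, hH, hw, hΦ⟩ := perX R H hab X hX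
  let d : Dat := ⟨⟨l, Nat.lt_succ_of_le hl⟩, lab, α⟩
  refine step R H hl lab hlab α (e d) (k d) (g d) N rfl (hK d) (hb d) M hM2 ?_ ?_
    (L₀ ⊔ IntermediateField.adjoin ℚ {v}) ?_ ?_ X ((mem_YNone_iff R X).1 hX).1 P σ w hσ hco hH hw hΦ
    F hF
  · exact (Dvd.intro _ rfl : H.index ∣ H.index * ∏ d, k d).mul_left 2
  · exact ((Finset.dvd_prod_of_mem k (Finset.mem_univ d)).mul_left _).mul_left 2
  · exact hUU _ ((le_sup_right : IntermediateField.adjoin ℚ {v} ≤ _)
      (IntermediateField.subset_adjoin _ _ (Set.mem_singleton v)))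
  · intro G _ _ hG τ
    obtain ⟨P, Q, h1, h2, h3⟩ := hfin G hG τ
    exact ⟨P, Q, h1, h2, fun g i j => OI_mono le_sup_left (h3 g i j)⟩

/-- For a finitely generated group with an abelian subgroup of finite index, the representations
into `SL_r(𝓞 L)` are Zariski dense in the semisimple representations, for some number field `L`. -/
theorem va_dense {ι : Type} [Finite ι] (R : Set (FreeGroup ι)) (Δ : Subgroup (FreeGroup ι))
    [Δ.FiniteIndex] (hΔ : ∀ v ∈ Δ, ∀ w ∈ Δ, ⁅v, w⁆ ∈ Subgroup.normalClosure R) (r : ℕ) :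
    ∃ L : IntermediateField ℚ ℂ, FiniteDimensional ℚ L ∧ IsDenseRep L (YNone R r) := by
  classical
  have := Fintype.ofFinite ι
  exact va_normal R Δ.normalCore
    (fun a ha b hb => hΔ a (Δ.normalCore_le ha) b (Δ.normalCore_le hb)) r

end Vale.Agent.P002.H306
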