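import Vale.Agent.P002.H306.Jor
import Vale.Agent.P002.H306.Main

/-!
# The locus of virtually abelian monodromy
-/

namespace Vale.Agent.P002.H306

open Matrix Vale.Agent.P002R.Orb

open scoped commutatorElement

variable {ι : Type} {r : ℕ}

/-- the intersection of the kernels of all homomorphisms to symmetric groups of degree at most
`B` -/
def Del (ι : Type) (B : ℕ) : Subgroup (FreeGroup ι) :=
  ⨅ (n : Fin (B + 1)), ⨅ (f : FreeGroup ι →* Equiv.Perm (Fin n)), f.ker

theorem Del_finite [Finite ι] (B : ℕ) : (Del ι B).FiniteIndex := by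
  have : ∀ n : ℕ, Finite (FreeGroup ι →* Equiv.Perm (Fin n)) := fun n =>
    Finite.of_equiv _ FreeGroup.lift
  unfold Del
  refine Subgroup.finiteIndex_iInf fun n => ?_
  exact Subgroup.finiteIndex_iInf fun f => inferInstance

theorem Del_le {B : ℕ} (K : Subgroup (FreeGroup ι)) (h0 : K.index ≠ 0) (hB : K.index ≤ B) :
    Del ι B ≤ K := by
  have : Finite (FreeGroup ι ⧸ K) := Nat.finite_of_card_ne_zero h0
  let e : (FreeGroup ι ⧸ K) ≃ Fin K.index := Finite.equivFin _
  let f : FreeGroup ι →* Equiv.Perm (Fin K.index) :=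
    e.permCongrHom.toMonoidHom.comp (MulAction.toPermHom (FreeGroup ι) (FreeGroup ι ⧸ K))
  have h1 : Del ι B ≤ f.ker :=
    (iInf_le _ (⟨K.index, Nat.lt_succ_of_le hB⟩ : Fin (B + 1))).trans (iInf_le _ f)
  refine h1.trans ?_
  intro x hx
  have h2 : e.permCongrHom (MulAction.toPermHom (FreeGroup ι) (FreeGroup ι ⧸ K) x) = 1 := hx
  rw [MulEquiv.map_eq_one_iff] at h2
  have h3 : x • ((1 : FreeGroup ι) : FreeGroup ι ⧸ K) = ((1 : FreeGroup ι) : FreeGroup ι ⧸ K) := by
    have := congrArg (fun p : Equiv.Perm (FreeGroup ι ⧸ K) =>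
      p ((1 : FreeGroup ι) : FreeGroup ι ⧸ K)) h2
    exact this
  have h4 : ((x * 1 : FreeGroup ι) : FreeGroup ι ⧸ K) = ((1 : FreeGroup ι) : FreeGroup ι ⧸ K) := h3
  rw [mul_one, eq_comm, QuotientGroup.eq, inv_one, one_mul] at h4
  exact h4

/-- The image of the representation is virtually abelian. -/
def IsVA (X : ι → SpecialLinearGroup (Fin r) ℂ) : Prop :=
  ∃ H : Subgroup (FreeGroup ι), H.FiniteIndex ∧
    ∀ a ∈ H, ∀ b ∈ H, FreeGroup.lift X a * FreeGroup.lift X b =
      FreeGroup.lift X b * FreeGroup.lift X a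

theorem locus_eq {J : ℕ} (hJ : JordanBound r J) (R : Set (FreeGroup ι)) [Finite ι] :
    {X ∈ YNone R r | IsVA X} =
      YNone (R ∪ {c | ∃ a ∈ Del ι (r.factorial * J), ∃ b ∈ Del ι (r.factorial * J),
        c = ⁅a, b⁆}) r := by
  ext X
  constructor
  · rintro ⟨hX, H, hHf, hH⟩
    have hHc : ∀ a ∈ H.normalCore, ∀ b ∈ H.normalCore, mh X a * mh X b = mh X b * mh X a :=
      fun a ha b hb => congrArg Subtype.val (hH a (H.normalCore_le ha) b (H.normalCore_le hb))
    obtain ⟨K, h0, hB, hK⟩ := comm_index hJ R H.normalCore X hX hHc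
    have hle := Del_le K h0 hB
    rw [mem_YNone_iff] at hX ⊢
    refine ⟨?_, hX.2⟩
    rintro w (hw | ⟨a, ha, b, hb, rfl⟩)
    · exact hX.1 w hw
    · have h1 : FreeGroup.lift X ⁅a, b⁆ = 1 := by
        rw [map_commutatorElement, commutatorElement_eq_one_iff_mul_comm]
        exact Subtype.ext (hK a (hle ha) b (hle hb))
      change (FreeGroup.lift X ⁅a, b⁆).1 = 1
      rw [h1]
      rfl
  · intro hX
    rw [mem_YNone_iff] at hX
    refine ⟨(mem_YNone_iff R X).2 ⟨fun w hw => hX.1 w (Or.inl hw), hX.2⟩,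
      Del ι (r.factorial * J), Del_finite _, ?_⟩
    intro a ha b hb
    have h1 : mh X ⁅a, b⁆ = 1 := hX.1 _ (Or.inr ⟨a, ha, b, hb, rfl⟩)
    have h2 : FreeGroup.lift X ⁅a, b⁆ = 1 := Subtype.ext h1
    rwa [map_commutatorElement, commutatorElement_eq_one_iff_mul_comm] at h2

/-- One number field suffices for the locus of virtually abelian monodromy. -/
theorem va_locus {J : ℕ} (hJ : JordanBound r J) (R : Set (FreeGroup ι)) [Finite ι] :
    ∃ L : IntermediateField ℚ ℂ, FiniteDimensional ℚ L ∧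
      IsDenseRep L {X ∈ YNone R r | IsVA X} := by
  rw [locus_eq hJ]
  have := Del_finite (ι := ι) (r.factorial * J)
  exact va_dense _ (Del ι (r.factorial * J)) (fun a ha b hb =>
    Subgroup.subset_normalClosure (Or.inr ⟨a, ha, b, hb, rfl⟩)) r

end Vale.Agent.P002.H306
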