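import Vale.Agent.P002.H306.Fam

/-!
# The structure of a semisimple representation of a virtually abelian group
-/

namespace Vale.Agent.P002.H306

open Matrix Vale.Agent.P002R.Orb

open scoped commutatorElement

theorem mh_normalClosure {ι : Type} {r : ℕ} {R : Set (FreeGroup ι)}
    {X : ι → SpecialLinearGroup (Fin r) ℂ} (h : ∀ w ∈ R, mh X w = 1) :
    ∀ w ∈ Subgroup.normalClosure R, mh X w = 1 := by
  have h1 : Subgroup.normalClosure R ≤ (FreeGroup.lift X).ker := by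
    apply Subgroup.normalClosure_le_normal
    intro w hw
    exact Subtype.ext (h w hw)
  intro w hw
  have := h1 hw
  rw [MonoidHom.mem_ker] at this
  change (FreeGroup.lift X w).1 = 1
  rw [this]
  rfl

theorem perX {ι : Type} {r : ℕ} (R : Set (FreeGroup ι)) (H : Subgroup (FreeGroup ι)) [H.Normal]
    [H.FiniteIndex] (hab : ∀ a ∈ H, ∀ b ∈ H, ⁅a, b⁆ ∈ Subgroup.normalClosure R)
    (X : ι → SpecialLinearGroup (Fin r) ℂ) (hX : X ∈ YNone R r) :
    ∃ (l : ℕ) (lab : Fin r → Fin l) (α : ι → Equiv.Perm (Fin l))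
      (P : (Matrix (Fin r) (Fin r) ℂ)ˣ) (σ : FreeGroup ι →* (Matrix (Fin r) (Fin r) ℂ)ˣ)
      (w : FreeGroup ι ⧸ H → (Matrix (Fin r) (Fin r) ℂ)ˣ),
      l ≤ r ∧ Function.Surjective lab ∧ (∀ γ, mh X γ = P.1 * (σ γ).1 * P⁻¹.1) ∧
      (∀ γ u, σ γ * Dg lab u = Dg lab (fun x => u ((FreeGroup.lift α γ)⁻¹ x)) * σ γ) ∧
      (∀ h ∈ H, ∃ u, σ h = Dg lab u) ∧ (∀ γ, ∃ t, σ γ = Dg lab t * w γ) ∧
      ∀ M : ℕ, H.index ∣ M → ∃ Φ : Subgroup (Matrix (Fin r) (Fin r) ℂ)ˣ,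
        ∀ g, g ∈ Φ ↔ ∃ u q, u ^ M = 1 ∧ g = Dg lab u * w q := by
  obtain ⟨hR, hss⟩ := (mem_YNone_iff R X).1 hX
  have hcomm : ∀ a ∈ H, ∀ b ∈ H, mh X a * mh X b = mh X b * mh X a := by
    intro a ha b hb
    have h1 := mh_normalClosure hR _ (hab a ha b hb)
    have h2 : FreeGroup.lift X ⁅a, b⁆ = 1 := Subtype.ext h1
    rw [map_commutatorElement, commutatorElement_eq_one_iff_mul_comm] at h2
    exact congrArg Subtype.val h2
  obtain ⟨P, Q, hPQ, hQP, hdiag⟩ := exists_diag (mh X) hss H hcomm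
  let σ₀ : FreeGroup ι →* Matrix (Fin r) (Fin r) ℂ :=
    { toFun := fun γ => Q * mh X γ * P
      map_one' := by rw [map_one, mul_one, hQP]
      map_mul' := by
        intro a b
        rw [map_mul]
        calc Q * (mh X a * mh X b) * P = Q * mh X a * (P * Q) * mh X b * P := by
              rw [hPQ]; simp only [mul_assoc, one_mul]
          _ = _ := by simp only [mul_assoc] }
  have hσ₀ : ∀ γ, σ₀ γ = Q * mh X γ * P := fun _ => rfl
  obtain ⟨l, lab, α₀, hl, hlab, hα, hu⟩ := exists_labels σ₀ H (fun h hh => by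
    obtain ⟨d, hd⟩ := hdiag h hh
    exact ⟨d, hd⟩)
  let α : ι → Equiv.Perm (Fin l) := fun p => α₀ (FreeGroup.of p)
  have hαl : FreeGroup.lift α = α₀ := by
    apply FreeGroup.ext_hom
    intro p
    rw [FreeGroup.lift_apply_of]
  let σ : FreeGroup ι →* (Matrix (Fin r) (Fin r) ℂ)ˣ := σ₀.toHomUnits
  have hσ : ∀ γ, (σ γ).1 = σ₀ γ := fun _ => rfl
  have hco : ∀ γ u, σ γ * Dg lab u = Dg lab (fun x => u ((α₀ γ)⁻¹ x)) * σ γ := fun γ u =>
    Dg_comm lab (σ γ) (α₀ γ) (hα γ) u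
  have hH : ∀ h ∈ H, ∃ u, σ h = Dg lab u := by
    intro h hh
    obtain ⟨u₀, hu₀⟩ := hu h hh
    have hne : ∀ x, u₀ x ≠ 0 := by
      intro x hx
      obtain ⟨i, rfl⟩ := hlab x
      have h1 : σ₀ h * σ₀ h⁻¹ = 1 := by rw [← map_mul, mul_inv_cancel, map_one]
      have h2 := congrFun (congrFun h1 i) i
      rw [hu₀, Matrix.diagonal_mul, Function.comp_apply, hx, zero_mul, Matrix.one_apply_eq] at h2
      exact zero_ne_one h2
    refine ⟨fun x => Units.mk0 (u₀ x) (hne x), Units.ext ?_⟩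
    rw [hσ, Dg_val, hu₀]
    rfl
  obtain ⟨w, hw, hΦ⟩ := split (Dg lab) (Dg_inj lab hlab) σ (mulAutArrow.comp α₀)
    (fun g u => hco g u) H hH (by
      intro n hn t
      have : ∀ x, ∃ s : ℂˣ, s ^ n = t x := by
        intro x
        obtain ⟨s, hs⟩ := IsAlgClosed.exists_pow_nat_eq (t x : ℂ) hn
        have hs0 : s ≠ 0 := by
          rintro rfl
          rw [zero_pow hn.ne'] at hs
          exact (t x).ne_zero hs.symm
        exact ⟨Units.mk0 s hs0, Units.ext (by simpa using hs)⟩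
      choose s hs using this
      exact ⟨s, funext hs⟩)
  refine ⟨l, lab, α, ⟨P, Q, hPQ, hQP⟩, σ, w, hl, hlab, ?_, ?_, hH, hw, hΦ⟩
  · intro γ
    change mh X γ = P * (Q * mh X γ * P) * Q
    calc mh X γ = (P * Q) * mh X γ * (P * Q) := by rw [hPQ, one_mul, mul_one]
      _ = _ := by simp only [mul_assoc]
  · intro γ u
    rw [hαl]
    exact hco γ u

end Vale.Agent.P002.H306
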