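import Vale.Agent.P002.H306.Struct

/-!
# The universal cocycle of a permutation representation of a free group
-/

namespace Vale.Agent.P002.H306

open Equiv

variable {ι : Type} {l : ℕ}

/-- the universal monomial representation -/
noncomputable def cocHom [DecidableEq ι] (α : ι → Perm (Fin l)) : FreeGroup ι →*
    (Fin l → Multiplicative (ι × Fin l → ℤ)) ⋊[mulAutArrow] Perm (Fin l) :=
  FreeGroup.lift fun p => ⟨fun x => Multiplicative.ofAdd (Pi.single (p, x) 1), α p⟩

/-- the universal cocycle -/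
noncomputable def bb [DecidableEq ι] (α : ι → Perm (Fin l)) (w : FreeGroup ι) (x : Fin l) :
    ι × Fin l → ℤ :=
  Multiplicative.toAdd ((cocHom α w).left x)

theorem cocHom_right [DecidableEq ι] (α : ι → Perm (Fin l)) (w : FreeGroup ι) :
    (cocHom α w).right = FreeGroup.lift α w := by
  have : SemidirectProduct.rightHom.comp (cocHom α) = FreeGroup.lift α := by
    apply FreeGroup.ext_hom
    intro p
    simp [cocHom]
  exact DFunLike.congr_fun this w

theorem bb_of [DecidableEq ι] (α : ι → Perm (Fin l)) (p : ι) (x : Fin l) :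
    bb α (FreeGroup.of p) x = Pi.single (p, x) 1 := by
  simp [bb, cocHom]

theorem bb_mul [DecidableEq ι] (α : ι → Perm (Fin l)) (w w' : FreeGroup ι) (x : Fin l) :
    bb α (w * w') x = bb α w x + bb α w' ((FreeGroup.lift α w)⁻¹ x) := by
  rw [← cocHom_right]
  simp [bb]
  rfl

theorem bb_one [DecidableEq ι] (α : ι → Perm (Fin l)) (x : Fin l) :
    bb α (1 : FreeGroup ι) x = 0 := by
  simp [bb]

theorem bb_pow [DecidableEq ι] (α : ι → Perm (Fin l)) (w : FreeGroup ι) (x : Fin l) (n : ℕ) :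
    bb α (w ^ n) x = ∑ k ∈ Finset.range n, bb α w (((FreeGroup.lift α w)⁻¹ ^ k) x) := by
  induction n generalizing x with
  | zero => simp [bb_one]
  | succ n ih =>
    rw [pow_succ, bb_mul, ih, Finset.sum_range_succ, map_pow, ← inv_pow]

section

variable {J : Type} [Fintype J] {A : Type*} [CommGroup A]

/-- evaluation of a monomial -/
def ev (t : J → A) (b : J → ℤ) : A := ∏ q, t q ^ b q

theorem ev_zero (t : J → A) : ev t 0 = 1 := by simp [ev]

theorem ev_add (t : J → A) (b b' : J → ℤ) : ev t (b + b') = ev t b * ev t b' := by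
  simp [ev, zpow_add, Finset.prod_mul_distrib]

theorem ev_neg (t : J → A) (b : J → ℤ) : ev t (-b) = (ev t b)⁻¹ := by
  simp [ev, zpow_neg, Finset.prod_inv_distrib]

theorem ev_sub (t : J → A) (b b' : J → ℤ) : ev t (b - b') = ev t b * (ev t b')⁻¹ := by
  rw [sub_eq_add_neg, ev_add, ev_neg]

theorem ev_zsmul (t : J → A) (k : ℤ) (b : J → ℤ) : ev t (k • b) = ev t b ^ k := by
  simp only [ev, Pi.smul_apply, smul_eq_mul]
  rw [← Finset.prod_zpow]
  refine Finset.prod_congr rfl fun q _ => ?_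
  rw [← zpow_mul, mul_comm]

theorem ev_nsmul (t : J → A) (k : ℕ) (b : J → ℤ) : ev t (k • b) = ev t b ^ k := by
  rw [← natCast_zsmul, ev_zsmul, zpow_natCast]

theorem ev_sum (t : J → A) {κ : Type*} (s : Finset κ) (b : κ → J → ℤ) :
    ev t (∑ i ∈ s, b i) = ∏ i ∈ s, ev t (b i) := by
  classical
  induction s using Finset.induction_on with
  | empty => simp [ev_zero]
  | insert i s hi ih => rw [Finset.sum_insert hi, Finset.prod_insert hi, ev_add, ih]

theorem ev_single [DecidableEq J] (t : J → A) (q : J) : ev t (Pi.single q 1) = t q := by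
  rw [ev, Finset.prod_eq_single q]
  · simp
  · intro b _ hb
    simp [hb]
  · simp

/-- the twist by a homomorphism -/
theorem ev_comp {s : ℕ} [DecidableEq J] (e : (J → ℤ) →+ (Fin s → ℤ)) (y : Fin s → A)
    (b : J → ℤ) :
    ev (fun q => ev y (e (Pi.single q 1))) b = ev y (e b) := by
  conv_rhs => rw [← Finset.univ_sum_single b]
  rw [map_sum, ev_sum, ev]
  refine Finset.prod_congr rfl fun q _ => ?_
  have : (Pi.single q (b q) : J → ℤ) = b q • Pi.single q 1 := by
    ext i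
    simp [Pi.single_apply]
  rw [this, map_zsmul, ev_zsmul]

end

/-- words in twisted generators -/
theorem word_eval [Fintype ι] [DecidableEq ι] {E A : Type*} [Group E] [CommGroup A]
    (D : (Fin l → A) →* E) (α : ι → Perm (Fin l)) (τ : FreeGroup ι →* E)
    (hτ : ∀ w u, τ w * D u = D (fun x => u ((FreeGroup.lift α w)⁻¹ x)) * τ w)
    (t : ι × Fin l → A) (w : FreeGroup ι) :
    FreeGroup.lift (fun p => D (fun x => t (p, x)) * τ (FreeGroup.of p)) w =
      D (fun x => ev t (bb α w x)) * τ w := by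
  let ψ : FreeGroup ι →* E := MonoidHom.mk' (fun w => D (fun x => ev t (bb α w x)) * τ w) (by
    intro w w'
    have h1 : (fun x => ev t (bb α (w * w') x)) = (fun x => ev t (bb α w x)) *
        (fun x => ev t (bb α w' ((FreeGroup.lift α w)⁻¹ x))) := by
      funext x
      rw [bb_mul, ev_add]
      rfl
    have h2 := hτ w (fun x => ev t (bb α w' x))
    rw [h1, map_mul, map_mul, mul_assoc, ← mul_assoc _ (τ w), ← h2]
    simp only [mul_assoc])
  have : FreeGroup.lift (fun p => D (fun x => t (p, x)) * τ (FreeGroup.of p)) = ψ := by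
    apply FreeGroup.ext_hom
    intro p
    rw [FreeGroup.lift_apply_of]
    change _ = D (fun x => ev t (bb α (FreeGroup.of p) x)) * τ (FreeGroup.of p)
    congr 2
    funext x
    rw [bb_of, ev_single]
  exact DFunLike.congr_fun this w

/-- algebraic units -/
def IsU (z : ℂˣ) : Prop := IsIntegral ℤ (z : ℂ) ∧ IsIntegral ℤ ((z⁻¹ : ℂˣ) : ℂ)

theorem IsU.one : IsU 1 := ⟨by simpa using isIntegral_one, by simpa using isIntegral_one⟩

theorem IsU.mul {z w : ℂˣ} (hz : IsU z) (hw : IsU w) : IsU (z * w) :=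
  ⟨by rw [Units.val_mul]; exact hz.1.mul hw.1,
    by rw [mul_inv_rev, Units.val_mul]; exact hw.2.mul hz.2⟩

theorem IsU.inv {z : ℂˣ} (hz : IsU z) : IsU z⁻¹ := ⟨hz.2, by rw [inv_inv]; exact hz.1⟩

theorem IsU.of_pow {z : ℂˣ} {k : ℕ} (hk : 0 < k) (hz : IsU (z ^ k)) : IsU z :=
  ⟨IsIntegral.of_pow hk (by simpa using hz.1), IsIntegral.of_pow hk (by
    have := hz.2
    rwa [← inv_pow, Units.val_pow_eq_pow_val] at this)⟩

theorem finite_values {J : Type} [Fintype J] (S : Set (J → ℤ)) (U : Set ℂˣ) (hU : U.Finite)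
    (hUu : ∀ z ∈ U, IsU z) (b : J → ℤ) (hb : b ∈ AddSubgroup.closure S) :
    ∃ V : Set ℂˣ, V.Finite ∧ (∀ z ∈ V, IsU z) ∧
      ∀ t : J → ℂˣ, (∀ c ∈ S, ev t c ∈ U) → ev t b ∈ V := by
  induction hb using AddSubgroup.closure_induction with
  | mem x hx => exact ⟨U, hU, hUu, fun t ht => ht x hx⟩
  | zero =>
    refine ⟨{1}, Set.finite_singleton _, ?_, fun t _ => by rw [ev_zero]; rfl⟩
    rintro z rfl
    exact IsU.one
  | add x y _ _ hx hy =>
    obtain ⟨V, hV, hVu, h1⟩ := hx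
    obtain ⟨V', hV', hVu', h2⟩ := hy
    refine ⟨Set.image2 (· * ·) V V', hV.image2 _ hV', ?_, ?_⟩
    · rintro _ ⟨a, ha, b, hb, rfl⟩
      exact (hVu a ha).mul (hVu' b hb)
    · intro t ht
      rw [ev_add]
      exact ⟨_, h1 t ht, _, h2 t ht, rfl⟩
  | neg x _ hx =>
    obtain ⟨V, hV, hVu, h1⟩ := hx
    refine ⟨(·⁻¹) '' V, hV.image _, ?_, ?_⟩
    · rintro _ ⟨a, ha, rfl⟩
      exact (hVu a ha).inv
    · intro t ht
      rw [ev_neg]
      exact ⟨_, h1 t ht, rfl⟩

theorem finite_roots (V : Set ℂˣ) (hV : V.Finite) (hVu : ∀ z ∈ V, IsU z) (k : ℕ) (hk : 0 < k) :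
    {z : ℂˣ | z ^ k ∈ V}.Finite ∧ ∀ z ∈ {z : ℂˣ | z ^ k ∈ V}, IsU z := by
  constructor
  · have : {z : ℂˣ | z ^ k ∈ V} = ⋃ v ∈ V, {z : ℂˣ | z ^ k = v} := by
      ext z; simp
    rw [this]
    refine hV.biUnion fun v _ => ?_
    by_cases h : ∃ z₀ : ℂˣ, z₀ ^ k = v
    · obtain ⟨z₀, rfl⟩ := h
      have : NeZero k := ⟨hk.ne'⟩
      have h1 : {z : ℂˣ | z ^ k = z₀ ^ k} = (fun ζ : rootsOfUnity k ℂ => (ζ : ℂˣ) * z₀) '' Set.univ := by
        ext z
        constructor
        · intro hz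
          refine ⟨⟨z * z₀⁻¹, ?_⟩, trivial, by simp⟩
          rw [mem_rootsOfUnity, mul_pow, inv_pow]
          rw [show z ^ k = z₀ ^ k from hz, mul_inv_cancel]
        · rintro ⟨ζ, -, rfl⟩
          change ((ζ : ℂˣ) * z₀) ^ k = _
          rw [mul_pow, show (ζ : ℂˣ) ^ k = 1 from (mem_rootsOfUnity k _).1 ζ.2, one_mul]
      rw [h1]
      exact Set.finite_univ.image _
    · convert Set.finite_empty
      ext z
      constructor
      · intro hz; exact (h ⟨z, hz⟩).elim
      · intro hz; exact hz.elim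
  · intro z hz
    exact IsU.of_pow hk (hVu _ hz)

/-- the finitely many units which can occur as correction -/
theorem finite_corr {J : Type} [Fintype J] [DecidableEq J] (S : Set (J → ℤ)) (U : Set ℂˣ)
    (hU : U.Finite) (hUu : ∀ z ∈ U, IsU z) {s : ℕ} (e : (J → ℤ) →+ (Fin s → ℤ)) (k : ℕ)
    (g : Fin s → (J → ℤ)) (hk : 0 < k)
    (h : ∀ b, k • (b - ∑ i, e b i • g i) ∈ AddSubgroup.closure S) :
    ∃ V : Set ℂˣ, V.Finite ∧ (∀ z ∈ V, IsU z) ∧ ∀ t : J → ℂˣ, (∀ c ∈ S, ev t c ∈ U) →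
      ∀ q, t q * (ev (fun i => ev t (g i)) (e (Pi.single q 1)))⁻¹ ∈ V := by
  choose V hV hVu hVt using fun q : J => finite_values S U hU hUu _ (h (Pi.single q 1))
  refine ⟨⋃ q, {z : ℂˣ | z ^ k ∈ V q}, Set.finite_iUnion fun q =>
    (finite_roots (V q) (hV q) (hVu q) k hk).1, ?_, ?_⟩
  · intro z hz
    obtain ⟨q, hq⟩ := Set.mem_iUnion.1 hz
    exact (finite_roots (V q) (hV q) (hVu q) k hk).2 z hq
  · intro t ht q
    refine Set.mem_iUnion.2 ⟨q, ?_⟩
    have h1 := hVt q t ht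
    rw [ev_nsmul, ev_sub, ev_single, ev_sum] at h1
    have h2 : ev (fun i => ev t (g i)) (e (Pi.single q 1)) =
        ∏ i, ev t (e (Pi.single q 1) i • g i) :=
      Finset.prod_congr rfl fun i _ => (ev_zsmul _ _ _).symm
    change (t q * (ev (fun i => ev t (g i)) (e (Pi.single q 1)))⁻¹) ^ k ∈ V q
    rw [h2]
    exact h1

end Vale.Agent.P002.H306
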