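import Mathlib

/-!
# Weights of a normal subgroup with commuting image, and semisimplicity
-/

namespace Vale.Agent.P002.H306

open Matrix

theorem exists_joint {V : Type*} [AddCommGroup V] [Module ℂ V] [FiniteDimensional ℂ V] {κ : Type*}
    (f : κ → Module.End ℂ V) (hc : ∀ a b, f a * f b = f b * f a) (n : ℕ) : ∀ W : Submodule ℂ V,
    Module.finrank ℂ W = n → W ≠ ⊥ → (∀ a, ∀ v ∈ W, f a v ∈ W) →
    ∃ v ∈ W, v ≠ 0 ∧ ∀ a, ∃ c : ℂ, f a v = c • v := by
  induction n using Nat.strong_induction_on with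
  | _ n ih =>
    intro W hn hW hinv
    by_cases H : ∀ a, ∃ c : ℂ, ∀ v ∈ W, f a v = c • v
    · obtain ⟨v, hv, hv0⟩ := (Submodule.ne_bot_iff W).1 hW
      exact ⟨v, hv, hv0, fun a => (H a).imp fun c hc => hc v hv⟩
    · push Not at H
      obtain ⟨a, ha⟩ := H
      have : Nontrivial W := Submodule.nontrivial_iff_ne_bot.2 hW
      obtain ⟨c, hc'⟩ := Module.End.exists_eigenvalue ((f a).restrict (hinv a))
      obtain ⟨w, hw⟩ := hc'.exists_hasEigenvector
      have hw1 : f a w.1 = c • w.1 := congrArg Subtype.val hw.apply_eq_smul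
      obtain ⟨v, hv, hvc⟩ := ha c
      let W₁ := W ⊓ LinearMap.ker (f a - c • (1 : Module.End ℂ V))
      have hmem : ∀ x, x ∈ W₁ ↔ x ∈ W ∧ f a x = c • x := by
        intro x
        rw [Submodule.mem_inf, LinearMap.mem_ker]
        simp [sub_eq_zero]
      have hlt : W₁ < W := by
        refine lt_of_le_of_ne inf_le_left fun h => hvc ?_
        rw [← h, hmem] at hv
        exact hv.2
      obtain ⟨x, hx, hx0, hx'⟩ := ih _ (by rw [← hn]; exact Submodule.finrank_lt_finrank_of_lt hlt)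
        W₁ rfl (by
          rw [Submodule.ne_bot_iff]
          exact ⟨w.1, (hmem _).2 ⟨w.2, hw1⟩, fun h => hw.2 (Subtype.ext h)⟩) (by
          intro b y hy
          rw [hmem] at hy ⊢
          refine ⟨hinv b y hy.1, ?_⟩
          have : f a (f b y) = f b (f a y) := by
            have := congrArg (fun g : Module.End ℂ V => g y) (hc a b)
            exact this
          rw [this, hy.2, map_smul])
      exact ⟨x, hlt.le hx, hx0, hx'⟩

variable {Γ : Type*} [Group Γ] {r : ℕ}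

/-- invariant subspaces -/
def Inv (ρ : Γ →* Matrix (Fin r) (Fin r) ℂ) (W : Submodule ℂ (Fin r → ℂ)) : Prop :=
  ∀ g, ∀ v ∈ W, ρ g *ᵥ v ∈ W

/-- semisimplicity -/
def Ssi (ρ : Γ →* Matrix (Fin r) (Fin r) ℂ) : Prop :=
  ∀ W, Inv ρ W → ∃ W', Inv ρ W' ∧ IsCompl W W'

theorem exists_diag (ρ : Γ →* Matrix (Fin r) (Fin r) ℂ) (hρ : Ssi ρ) (H : Subgroup Γ) [H.Normal]
    (hH : ∀ a ∈ H, ∀ b ∈ H, ρ a * ρ b = ρ b * ρ a) :
    ∃ P Q : Matrix (Fin r) (Fin r) ℂ, P * Q = 1 ∧ Q * P = 1 ∧
      ∀ h ∈ H, ∃ d : Fin r → ℂ, Q * ρ h * P = diagonal d := by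
  classical
  let S : Set (Fin r → ℂ) := {v | ∀ h ∈ H, ∃ c : ℂ, ρ h *ᵥ v = c • v}
  have hE : Inv ρ (Submodule.span ℂ S) := by
    intro g v hv
    induction hv using Submodule.span_induction with
    | mem x hx =>
      refine Submodule.subset_span fun h hh => ?_
      have h1 : g⁻¹ * h * g ∈ H := by
        have := ‹H.Normal›.conj_mem h hh g⁻¹
        rwa [inv_inv] at this
      obtain ⟨c, hc⟩ := hx _ h1
      refine ⟨c, ?_⟩
      rw [Matrix.mulVec_mulVec, ← Matrix.mulVec_smul, ← hc, Matrix.mulVec_mulVec, ← map_mul,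
        ← map_mul]
      congr 2
      group
    | zero => rw [Matrix.mulVec_zero]; exact Submodule.zero_mem _
    | add x y _ _ hx hy => rw [Matrix.mulVec_add]; exact Submodule.add_mem _ hx hy
    | smul c x _ hx => rw [Matrix.mulVec_smul]; exact Submodule.smul_mem _ _ hx
  obtain ⟨W', hW', hc⟩ := hρ _ hE
  have hbot : W' = ⊥ := by
    by_contra hne
    obtain ⟨v, hv, hv0, hv'⟩ := exists_joint (fun h : H => Matrix.mulVecLin (ρ h.1)) (by
      intro a b
      rw [Module.End.mul_eq_comp, Module.End.mul_eq_comp, ← Matrix.mulVecLin_mul,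
        ← Matrix.mulVecLin_mul, hH _ a.2 _ b.2]) _ W' rfl hne (fun a v hv => hW' a.1 v hv)
    have : v ∈ Submodule.span ℂ S := Submodule.subset_span fun h hh => hv' ⟨h, hh⟩
    exact hv0 (by simpa using (Submodule.disjoint_def.1 hc.disjoint) v this hv)
  have htop : ⊤ ≤ Submodule.span ℂ S := by
    have := hc.sup_eq_top
    rw [hbot, sup_bot_eq] at this
    exact this.ge
  let b₀ := Module.Basis.ofSpan htop
  let e := b₀.indexEquiv (Pi.basisFun ℂ (Fin r))
  let b : Fin r → (Fin r → ℂ) := fun i => b₀ (e.symm i)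
  have hbS : ∀ i, b i ∈ S := fun i => Module.Basis.ofSpan_subset htop ⟨e.symm i, rfl⟩
  have hb : LinearIndependent ℂ b := b₀.linearIndependent.comp _ e.symm.injective
  let P : Matrix (Fin r) (Fin r) ℂ := Matrix.of fun i j => b j i
  have hP : IsUnit P := by
    rw [← Matrix.linearIndependent_cols_iff_isUnit]
    exact hb
  have hdet : IsUnit P.det := (Matrix.isUnit_iff_isUnit_det P).1 hP
  refine ⟨P, P⁻¹, Matrix.mul_nonsing_inv _ hdet, Matrix.nonsing_inv_mul _ hdet, ?_⟩
  intro h hh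
  choose c hc using fun i => hbS i h hh
  refine ⟨c, ?_⟩
  have : ρ h * P = P * diagonal c := by
    ext i j
    have := congrFun (hc j) i
    rw [Matrix.mul_diagonal]
    change _ = b j i * c j
    rw [mul_comm]
    exact this
  rw [Matrix.mul_assoc, this, Matrix.nonsing_inv_mul_cancel_left _ _ hdet]

theorem exists_labels (σ : Γ →* Matrix (Fin r) (Fin r) ℂ) (H : Subgroup Γ) [hN : H.Normal]
    (hH : ∀ h ∈ H, ∃ d : Fin r → ℂ, σ h = diagonal d) :
    ∃ (l : ℕ) (lab : Fin r → Fin l) (α : Γ →* Equiv.Perm (Fin l)), l ≤ r ∧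
      Function.Surjective lab ∧ (∀ g i j, σ g i j ≠ 0 → lab i = α g (lab j)) ∧
      ∀ h ∈ H, ∃ u : Fin l → ℂ, σ h = diagonal (u ∘ lab) := by
  classical
  let χ : Fin r → (H → ℂ) := fun i h => σ h i i
  have hχ : ∀ h : H, σ h = diagonal fun i => χ i h := by
    intro h
    obtain ⟨d, hd⟩ := hH h h.2
    ext i j
    by_cases hij : i = j
    · subst hij; simp [χ]
    · rw [Matrix.diagonal_apply_ne _ hij, hd, Matrix.diagonal_apply_ne _ hij]
  have hcj : ∀ (g : Γ) (h : H), g⁻¹ * h * g ∈ H := by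
    intro g h
    have := hN.conj_mem h h.2 g⁻¹
    rwa [inv_inv] at this
  let act : Γ → (H → ℂ) → (H → ℂ) := fun g f h => f ⟨g⁻¹ * h * g, hcj g h⟩
  have act_one : ∀ f, act 1 f = f := by
    intro f
    funext h
    simp [act]
  have act_mul : ∀ g g' f, act (g * g') f = act g (act g' f) := by
    intro g g' f
    funext h
    simp only [act]
    congr 2
    group
  have key : ∀ g i j, σ g i j ≠ 0 → χ i = act g (χ j) := by
    intro g i j hne
    funext h
    have h1 : σ h * σ g = σ g * σ (g⁻¹ * h * g) := by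
      rw [← map_mul, ← map_mul]
      congr 1
      group
    have h2 := congrFun (congrFun h1 i) j
    rw [hχ h, show σ (g⁻¹ * h * g) = _ from hχ ⟨g⁻¹ * h * g, hcj g h⟩, Matrix.diagonal_mul,
      Matrix.mul_diagonal, mul_comm] at h2
    exact mul_left_cancel₀ hne h2
  have hex : ∀ g j, ∃ i, σ g i j ≠ 0 := by
    intro g j
    by_contra hcon
    push Not at hcon
    have h1 : σ g⁻¹ * σ g = 1 := by rw [← map_mul, inv_mul_cancel, map_one]
    have h2 := congrFun (congrFun h1 j) j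
    rw [Matrix.mul_apply, Matrix.one_apply_eq] at h2
    simp [hcon] at h2
  have hact : ∀ g (f : Set.range χ), act g f.1 ∈ Set.range χ := by
    rintro g ⟨_, j, rfl⟩
    obtain ⟨i, hi⟩ := hex g j
    exact ⟨i, key g i j hi⟩
  let : MulAction Γ (Set.range χ) :=
    { smul := fun g f => ⟨act g f.1, hact g f⟩
      one_smul := fun f => Subtype.ext (act_one _)
      mul_smul := fun g g' f => Subtype.ext (act_mul _ _ _) }
  have : Fintype (Set.range χ) := Set.fintypeRange χ
  let e : Set.range χ ≃ Fin (Fintype.card (Set.range χ)) := Fintype.equivFin _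
  refine ⟨Fintype.card (Set.range χ), fun i => e ⟨χ i, i, rfl⟩,
    (e.permCongrHom.toMonoidHom).comp (MulAction.toPermHom Γ (Set.range χ)), ?_, ?_, ?_, ?_⟩
  · have := Fintype.card_range_le χ
    simpa using this
  · intro x
    obtain ⟨⟨_, i, rfl⟩, hx⟩ := e.surjective x
    exact ⟨i, hx⟩
  · intro g i j hne
    have : (e.permCongrHom.toMonoidHom.comp (MulAction.toPermHom Γ (Set.range χ))) g
        (e ⟨χ j, j, rfl⟩) = e (g • ⟨χ j, j, rfl⟩) := by
      simp [Equiv.permCongrHom]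
    rw [this]
    exact congrArg e (Subtype.ext (key g i j hne))
  · intro h hh
    refine ⟨fun x => (e.symm x).1 ⟨h, hh⟩, ?_⟩
    rw [hχ ⟨h, hh⟩]
    congr 1
    funext i
    simp

/-- Semisimplicity from a diagonalizable subgroup of finite index. -/
theorem ssi_of_diag (σ : Γ →* Matrix (Fin r) (Fin r) ℂ) (H : Subgroup Γ) [H.FiniteIndex]
    (hH : ∀ h ∈ H, ∃ d : Fin r → ℂ, σ h = diagonal d) : Ssi σ := by
  classical
  intro W hW
  -- a complement spanned by a part of the standard basis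
  obtain ⟨κ, a, -, hsp, hli⟩ := exists_linearIndependent' ℂ
    (fun i : Fin r => W.mkQ (Pi.single i 1 : Fin r → ℂ))
  let W₀ := Submodule.span ℂ (Set.range fun k => (Pi.single (a k) 1 : Fin r → ℂ))
  have hc : IsCompl W W₀ := by
    constructor
    · rw [Submodule.disjoint_def]
      intro x hx hx0
      obtain ⟨c, rfl⟩ := (Finsupp.mem_span_range_iff_exists_finsupp).1 hx0
      have h1 : W.mkQ (c.sum fun i t => t • (Pi.single (a i) 1 : Fin r → ℂ)) = 0 := by
        rw [Submodule.mkQ_apply, Submodule.Quotient.mk_eq_zero]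
        exact hx
      rw [map_finsuppSum] at h1
      simp only [map_smul] at h1
      have h2 := (linearIndependent_iff.1 hli) c h1
      rw [h2]
      simp
    · rw [codisjoint_iff, eq_top_iff]
      intro x _
      have h1 : W.mkQ x ∈ Submodule.span ℂ (Set.range fun k =>
          W.mkQ (Pi.single (a k) 1 : Fin r → ℂ)) := by
        have : Submodule.span ℂ (Set.range fun k =>
          W.mkQ (Pi.single (a k) 1 : Fin r → ℂ)) = ⊤ := by
          have h3 := hsp
          rw [show (fun k => W.mkQ (Pi.single (a k) 1 : Fin r → ℂ)) =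
            (fun i : Fin r => W.mkQ (Pi.single i 1 : Fin r → ℂ)) ∘ a from rfl, h3]
          rw [show (fun i : Fin r => W.mkQ (Pi.single i 1 : Fin r → ℂ)) =
            W.mkQ ∘ (Pi.basisFun ℂ (Fin r)) from by ext i; simp, Set.range_comp,
            ← Submodule.map_span, Module.Basis.span_eq, Submodule.map_top,
            Submodule.range_mkQ]
        rw [this]
        trivial
      have h4 : Submodule.span ℂ (Set.range fun k =>
          W.mkQ (Pi.single (a k) 1 : Fin r → ℂ)) = W₀.map W.mkQ := by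
        rw [Submodule.map_span, ← Set.range_comp]
        rfl
      rw [h4] at h1
      obtain ⟨y, hy, hyx⟩ := h1
      have h5 : x - y ∈ W := by
        rw [← Submodule.Quotient.mk_eq_zero W]
        rw [Submodule.Quotient.mk_sub, sub_eq_zero]
        exact hyx.symm
      have : x = (x - y) + y := by abel
      rw [this]
      exact Submodule.add_mem_sup h5 hy
  have hW₀ : ∀ h ∈ H, ∀ v ∈ W₀, σ h *ᵥ v ∈ W₀ := by
    intro h hh v hv
    obtain ⟨d, hd⟩ := hH h hh
    induction hv using Submodule.span_induction with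
    | mem x hx =>
      obtain ⟨k, rfl⟩ := hx
      have : σ h *ᵥ (Pi.single (a k) 1 : Fin r → ℂ) = d (a k) • Pi.single (a k) 1 := by
        rw [hd]
        ext i
        rw [Matrix.mulVec_diagonal, Pi.smul_apply, smul_eq_mul]
        by_cases hi : i = a k
        · subst hi; rfl
        · simp [hi]
      rw [this]
      exact Submodule.smul_mem _ _ (Submodule.subset_span ⟨k, rfl⟩)
    | zero => rw [Matrix.mulVec_zero]; exact Submodule.zero_mem _
    | add x y _ _ hx hy => rw [Matrix.mulVec_add]; exact Submodule.add_mem _ hx hy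
    | smul c x _ hx => rw [Matrix.mulVec_smul]; exact Submodule.smul_mem _ _ hx
  have := H.fintypeQuotientOfFiniteIndex
  obtain ⟨p, hp⟩ : ∃ p, p = W.projection W₀ hc := ⟨_, rfl⟩
  have hpW : ∀ v, p v ∈ W := fun v => hp ▸ Submodule.projection_apply_mem hc v
  have hpid : ∀ v ∈ W, p v = v := fun v hv => by
    rw [hp]; exact Submodule.projection_apply_of_mem_left hc hv
  have hp0 : ∀ v, v - p v ∈ W₀ := by
    intro v
    rw [← Submodule.projection_apply_eq_zero_iff hc, ← hp, map_sub, sub_eq_zero]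
    exact (hpid _ (hpW v)).symm
  have hpz : ∀ v ∈ W₀, p v = 0 := fun v hv => by
    rw [hp]; exact (Submodule.projection_apply_eq_zero_iff hc).2 hv
  obtain ⟨M, hM⟩ : ∃ M : Matrix (Fin r) (Fin r) ℂ, ∀ v, M *ᵥ v = p v :=
    ⟨LinearMap.toMatrix' p, fun v => by
      rw [← Matrix.toLin'_apply, Matrix.toLin'_toMatrix']⟩
  have hext : ∀ A B : Matrix (Fin r) (Fin r) ℂ, (∀ v, A *ᵥ v = B *ᵥ v) → A = B := by
    intro A B h
    apply Matrix.toLin'.injective
    refine LinearMap.ext fun v => ?_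
    rw [Matrix.toLin'_apply, Matrix.toLin'_apply, h]
  have hcomm : ∀ h ∈ H, σ h * M = M * σ h := by
    intro h hh
    apply hext
    intro v
    rw [← Matrix.mulVec_mulVec, ← Matrix.mulVec_mulVec, hM, hM]
    have h1 : σ h *ᵥ v = σ h *ᵥ p v + σ h *ᵥ (v - p v) := by
      rw [← Matrix.mulVec_add]
      congr 1
      abel
    rw [h1, map_add, hpid _ (hW h _ (hpW v)),
      hpz _ (hW₀ h hh _ (hp0 v)), add_zero]
  obtain ⟨A, hAd⟩ : ∃ A : Γ → Matrix (Fin r) (Fin r) ℂ, ∀ g, A g = σ g * M * σ g⁻¹ :=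
    ⟨_, fun _ => rfl⟩
  have hA : ∀ g, ∀ h ∈ H, A (g * h) = A g := by
    intro g h hh
    have h1 : σ (g * h) = σ g * σ h := map_mul _ _ _
    have h2 : σ (g * h)⁻¹ = σ h⁻¹ * σ g⁻¹ := by rw [_root_.mul_inv_rev, map_mul]
    have h3 : σ h * σ h⁻¹ = 1 := by rw [← map_mul, mul_inv_cancel, map_one]
    rw [hAd, hAd, h1, h2, mul_assoc (σ g), hcomm h hh, ← mul_assoc (σ g), mul_assoc _ (σ h),
      ← mul_assoc (σ h), h3, one_mul]
  have hAout : ∀ g : Γ, A ((g : Γ ⧸ H).out) = A g := by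
    intro g
    obtain ⟨h, hh⟩ := QuotientGroup.mk_out_eq_mul H g
    rw [hh, hA g _ h.2]
  obtain ⟨N, hNd⟩ : ∃ N : Matrix (Fin r) (Fin r) ℂ,
    N = ((Fintype.card (Γ ⧸ H) : ℂ))⁻¹ • ∑ q : Γ ⧸ H, A q.out := ⟨_, rfl⟩
  have hm : (Fintype.card (Γ ⧸ H) : ℂ) ≠ 0 := by exact_mod_cast Fintype.card_ne_zero
  have hN : ∀ g, σ g * N = N * σ g := by
    intro g
    have h1 : σ g * N * σ g⁻¹ = N := by
      rw [hNd, mul_smul_comm, smul_mul_assoc, Finset.mul_sum, Finset.sum_mul]
      congr 1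
      conv_rhs => rw [← Equiv.sum_comp (MulAction.toPerm g)]
      refine Finset.sum_congr rfl fun q _ => ?_
      rw [MulAction.toPerm_apply]
      obtain ⟨x, rfl⟩ := QuotientGroup.mk_surjective q
      have : (g • (x : Γ ⧸ H)) = ((g * x : Γ) : Γ ⧸ H) := rfl
      rw [this, hAout, hAout]
      rw [hAd, hAd, _root_.mul_inv_rev, map_mul, map_mul]
      simp only [mul_assoc]
    have h2 : σ g⁻¹ * σ g = 1 := by rw [← map_mul, inv_mul_cancel, map_one]
    calc σ g * N = σ g * N * (σ g⁻¹ * σ g) := by rw [h2, mul_one]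
      _ = σ g * N * σ g⁻¹ * σ g := by rw [mul_assoc, mul_assoc, mul_assoc]
      _ = N * σ g := by rw [h1]
  have hNmem : ∀ v, N *ᵥ v ∈ W := by
    intro v
    rw [hNd, Matrix.smul_mulVec, Matrix.sum_mulVec]
    refine W.smul_mem _ (W.sum_mem fun q _ => ?_)
    rw [hAd, ← Matrix.mulVec_mulVec, ← Matrix.mulVec_mulVec, hM]
    exact hW _ _ (hpW _)
  have hNid : ∀ v ∈ W, N *ᵥ v = v := by
    intro v hv
    have h1 : ∀ g, A g *ᵥ v = v := by
      intro g
      rw [hAd, ← Matrix.mulVec_mulVec, ← Matrix.mulVec_mulVec, hM, hpid _ (hW _ _ hv),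
        Matrix.mulVec_mulVec, ← map_mul, mul_inv_cancel, map_one, Matrix.one_mulVec]
    rw [hNd, Matrix.smul_mulVec, Matrix.sum_mulVec]
    simp_rw [h1]
    rw [Finset.sum_const, Finset.card_univ, ← Nat.cast_smul_eq_nsmul ℂ, smul_smul,
      inv_mul_cancel₀ hm, one_smul]
  have hproj : LinearMap.IsProj W (Matrix.mulVecLin N) := ⟨hNmem, hNid⟩
  refine ⟨LinearMap.ker (Matrix.mulVecLin N), ?_, hproj.isCompl⟩
  intro g v hv
  rw [LinearMap.mem_ker, Matrix.mulVecLin_apply] at hv ⊢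
  rw [Matrix.mulVec_mulVec, ← hN, ← Matrix.mulVec_mulVec, hv, Matrix.mulVec_zero]

/-- Semisimplicity is invariant under conjugation. -/
theorem Ssi.conj {ρ σ : Γ →* Matrix (Fin r) (Fin r) ℂ} (h : Ssi ρ)
    {P Q : Matrix (Fin r) (Fin r) ℂ} (hPQ : P * Q = 1) (hQP : Q * P = 1)
    (hσ : ∀ g, σ g = P * ρ g * Q) : Ssi σ := by
  have hPQv : ∀ v, P *ᵥ (Q *ᵥ v) = v := fun v => by
    rw [Matrix.mulVec_mulVec, hPQ, Matrix.one_mulVec]
  have hQPv : ∀ v, Q *ᵥ (P *ᵥ v) = v := fun v => by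
    rw [Matrix.mulVec_mulVec, hQP, Matrix.one_mulVec]
  let e : (Fin r → ℂ) ≃ₗ[ℂ] (Fin r → ℂ) :=
    { Matrix.mulVecLin P with
      invFun := fun v => Q *ᵥ v
      left_inv := hQPv
      right_inv := hPQv }
  have he : ∀ v, e v = P *ᵥ v := fun _ => rfl
  have hes : ∀ v, e.symm v = Q *ᵥ v := fun _ => rfl
  have hρ : ∀ g v, ρ g *ᵥ v = Q *ᵥ (σ g *ᵥ (P *ᵥ v)) := by
    intro g v
    rw [hσ, Matrix.mulVec_mulVec, Matrix.mulVec_mulVec]
    congr 1
    simp only [Matrix.mul_assoc, hQP, Matrix.mul_one]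
    rw [← Matrix.mul_assoc, hQP, Matrix.one_mul]
  intro W hW
  obtain ⟨W', hW', hc⟩ := h (W.map e.symm.toLinearMap) (by
    rintro g _ ⟨v, hv, rfl⟩
    refine ⟨σ g *ᵥ v, hW g v hv, ?_⟩
    change Q *ᵥ _ = ρ g *ᵥ (Q *ᵥ v)
    rw [hρ, hPQv])
  refine ⟨W'.map e.toLinearMap, ?_, ?_⟩
  · rintro g _ ⟨v, hv, rfl⟩
    refine ⟨ρ g *ᵥ v, hW' g v hv, ?_⟩
    change P *ᵥ _ = σ g *ᵥ (P *ᵥ v)
    rw [hρ, hPQv]
  · have h1 : IsCompl ((W.map e.symm.toLinearMap).map e.toLinearMap) (W'.map e.toLinearMap) := by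
      have := (Submodule.orderIsoMapComap e).isCompl hc
      exact this
    have h2 : (W.map e.symm.toLinearMap).map e.toLinearMap = W := by
      rw [← Submodule.map_comp]
      have : e.toLinearMap.comp e.symm.toLinearMap = LinearMap.id := by
        ext1 v
        simp
      rw [this, Submodule.map_id]
    rwa [h2] at h1

end Vale.Agent.P002.H306
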