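import Vale.Agent.P002R.YOrbStmt
import Vale.Agent.P002.H306.Wt
import Vale.Agent.P002.H306.Coc
import Vale.Agent.P002.H306.Word

/-!
# Semisimple representations as homomorphisms to invertible matrices
-/

namespace Vale.Agent.P002.H306

open Matrix Vale.Agent.P002R.Orb

variable {ι : Type} {r : ℕ}

/-- the homomorphism to matrices -/
def mh (X : ι → SpecialLinearGroup (Fin r) ℂ) : FreeGroup ι →* Matrix (Fin r) (Fin r) ℂ :=
  SpecialLinearGroup.coeMonoidHom.comp (FreeGroup.lift X)

theorem mh_of (X : ι → SpecialLinearGroup (Fin r) ℂ) (p : ι) : mh X (FreeGroup.of p) = (X p).1 := by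
  simp [mh]

theorem inv_mem {g h : Matrix (Fin r) (Fin r) ℂ} (hgh : h * g = 1)
    {W : Submodule ℂ (Fin r → ℂ)} (hW : ∀ v ∈ W, g *ᵥ v ∈ W) : ∀ v ∈ W, h *ᵥ v ∈ W := by
  have hinj : Function.Injective (Matrix.mulVecLin g) := by
    intro a b hab
    have := congrArg (fun x => h *ᵥ x) hab
    simpa [hgh] using this
  have h1 : W.map (Matrix.mulVecLin g) = W := by
    apply Submodule.eq_of_le_of_finrank_eq
    · rintro _ ⟨v, hv, rfl⟩
      exact hW v hv
    · exact (Submodule.equivMapOfInjective _ hinj W).symm.finrank_eq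
  intro v hv
  rw [← h1] at hv
  obtain ⟨w, hw, rfl⟩ := hv
  rw [Matrix.mulVecLin_apply, Matrix.mulVec_mulVec, hgh, Matrix.one_mulVec]
  exact hw

theorem isInv_iff (X : ι → SpecialLinearGroup (Fin r) ℂ) (W : Submodule ℂ (Fin r → ℂ)) :
    IsInv X W ↔ Inv (mh X) W := by
  constructor
  · intro h g
    induction g using FreeGroup.induction_on with
    | C1 => intro v hv; rwa [map_one, Matrix.one_mulVec]
    | of p => rw [mh_of]; exact h p
    | inv_of p ih =>
      apply inv_mem _ ih
      rw [← map_mul, inv_mul_cancel, map_one]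
    | mul a b iha ihb =>
      intro v hv
      rw [map_mul, ← Matrix.mulVec_mulVec]
      exact iha _ (ihb _ hv)
  · intro h p v hv
    rw [← mh_of]
    exact h _ v hv

theorem mem_YNone_iff (R : Set (FreeGroup ι)) (X : ι → SpecialLinearGroup (Fin r) ℂ) :
    X ∈ YNone R r ↔ (∀ w ∈ R, mh X w = 1) ∧ Ssi (mh X) := by
  have h1 : (∀ w ∈ R, mh X w = 1) ↔ IsRep R X := by
    refine forall₂_congr fun w _ => ?_
    constructor
    · intro h
      exact Subtype.ext h
    · intro h
      change (FreeGroup.lift X w).1 = 1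
      rw [h]
      rfl
  rw [h1]
  change IsRep R X ∧ _ ↔ _
  refine and_congr_right fun _ => ?_
  constructor
  · intro h W hW
    obtain ⟨W', h1, h2⟩ := h W ((isInv_iff X W).2 hW)
    exact ⟨W', (isInv_iff X W').1 h1, h2⟩
  · intro h W hW
    obtain ⟨W', h1, h2⟩ := h W ((isInv_iff X W).1 hW)
    exact ⟨W', (isInv_iff X W').2 h1, h2⟩

/-- block scalar matrices -/
noncomputable def Dg {l : ℕ} (lab : Fin r → Fin l) :
    (Fin l → ℂˣ) →* (Matrix (Fin r) (Fin r) ℂ)ˣ :=
  MonoidHom.toHomUnits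
    { toFun := fun u => diagonal fun i => (u (lab i) : ℂ)
      map_one' := by simp
      map_mul' := by intro a b; simp }

theorem Dg_val {l : ℕ} (lab : Fin r → Fin l) (u : Fin l → ℂˣ) :
    (Dg lab u).1 = diagonal fun i => (u (lab i) : ℂ) := rfl

theorem Dg_inj {l : ℕ} (lab : Fin r → Fin l) (hl : Function.Surjective lab) :
    Function.Injective (Dg lab) := by
  intro u v h
  have h1 := congrArg Units.val h
  rw [Dg_val, Dg_val] at h1
  have h2 := Matrix.diagonal_injective h1
  funext x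
  obtain ⟨i, rfl⟩ := hl x
  exact Units.ext (congrFun h2 i)

theorem Dg_comm {l : ℕ} (lab : Fin r → Fin l) (g : (Matrix (Fin r) (Fin r) ℂ)ˣ)
    (π : Equiv.Perm (Fin l)) (h : ∀ i j, g.1 i j ≠ 0 → lab i = π (lab j)) (u : Fin l → ℂˣ) :
    g * Dg lab u = Dg lab (fun x => u (π⁻¹ x)) * g := by
  apply Units.ext
  rw [Units.val_mul, Units.val_mul, Dg_val, Dg_val]
  ext i j
  rw [Matrix.mul_diagonal, Matrix.diagonal_mul]
  by_cases hij : g.1 i j = 0
  · rw [hij, zero_mul, mul_zero]
  · rw [h i j hij]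
    simp [mul_comm]

theorem comm_lift {l : ℕ} {E : Type*} [Group E] (D : (Fin l → ℂˣ) →* E)
    (α : ι → Equiv.Perm (Fin l)) (φ : ι → E)
    (h : ∀ p u, φ p * D u = D (fun x => u ((α p)⁻¹ x)) * φ p) (w : FreeGroup ι) :
    ∀ u, FreeGroup.lift φ w * D u = D (fun x => u ((FreeGroup.lift α w)⁻¹ x)) *
      FreeGroup.lift φ w := by
  induction w using FreeGroup.induction_on with
  | C1 => intro u; simp
  | of p => intro u; simpa using h p u
  | inv_of p _ =>
    intro u
    have := h p (fun x => u (α p x))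
    have h2 : (fun x => (fun y => u (α p y)) ((α p)⁻¹ x)) = u := by
      funext x
      simp
    rw [h2] at this
    rw [map_inv, map_inv, FreeGroup.lift_apply_of, FreeGroup.lift_apply_of, inv_inv,
      inv_mul_eq_iff_eq_mul, ← mul_assoc, this, mul_inv_cancel_right]
  | mul a b iha ihb =>
    intro u
    rw [map_mul, map_mul, mul_assoc, ihb, ← mul_assoc, iha, mul_assoc]
    simp

end Vale.Agent.P002.H306
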