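import Vale.Agent.P002.H306.PerX

/-!
# The deformation of one representation
-/

namespace Vale.Agent.P002.H306

open Matrix Vale.Agent.P002R.Orb

variable {ι : Type} {r : ℕ}

/-- exponents on which the character of a representation is trivial -/
def SS [DecidableEq ι] (R : Set (FreeGroup ι)) (N : ℕ) {l : ℕ} (lab : Fin r → Fin l)
    (α : ι → Equiv.Perm (Fin l)) : Set (ι × Fin l → ℤ) :=
  {b | (∃ w ∈ R, ∃ x, b = N • bb α w x) ∨ ∃ p, b = N • ∑ i, Pi.single (p, lab i) 1}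

theorem value_eq (F : MvPolynomial (ι × Fin r × Fin r) ℂ) (X : ι → SpecialLinearGroup (Fin r) ℂ) :
    value F X = MvPolynomial.eval (fun q : ι × Fin r × Fin r => (X q.1).1 q.2.1 q.2.2) F := rfl

theorem lift_mem {E : Type*} [Group E] (Φ : Subgroup E) (φ : ι → E) (h : ∀ p, φ p ∈ Φ)
    (w : FreeGroup ι) : FreeGroup.lift φ w ∈ Φ := by
  induction w using FreeGroup.induction_on with
  | C1 => rw [map_one]; exact Φ.one_mem
  | of p => rw [FreeGroup.lift_apply_of]; exact h p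
  | inv_of p ih => rw [map_inv]; exact Φ.inv_mem ih
  | mul a b iha ihb => rw [map_mul]; exact Φ.mul_mem iha ihb

theorem det_Dg {l : ℕ} (lab : Fin r → Fin l) (u : Fin l → ℂˣ) :
    (Dg lab u).1.det = ((∏ i, u (lab i) : ℂˣ) : ℂ) := by
  rw [Dg_val, Matrix.det_diagonal, Units.coe_prod]

/-- a family of conjugates -/
theorem fam_mem (R : Set (FreeGroup ι)) (H : Subgroup (FreeGroup ι)) [H.FiniteIndex]
    {l : ℕ} (lab : Fin r → Fin l) (ρ : FreeGroup ι →* (Matrix (Fin r) (Fin r) ℂ)ˣ)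
    (hR : ∀ w ∈ R, ρ w = 1) (hH : ∀ h ∈ H, ∃ u, ρ h = Dg lab u)
    (hdet : ∀ p, (ρ (FreeGroup.of p)).1.det = 1) (T : (Matrix (Fin r) (Fin r) ℂ)ˣ) :
    ∃ X' ∈ YNone R r, ∀ p, (X' p).1 = T.1 * (ρ (FreeGroup.of p)).1 * T⁻¹.1 := by
  have hTdet : T.1.det * T⁻¹.1.det = 1 := by
    rw [← Matrix.det_mul, ← Units.val_mul, mul_inv_cancel, Units.val_one, Matrix.det_one]
  let X' : ι → SpecialLinearGroup (Fin r) ℂ := fun p => ⟨T.1 * (ρ (FreeGroup.of p)).1 * T⁻¹.1, by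
    rw [Matrix.det_mul, Matrix.det_mul, hdet, mul_one, hTdet]⟩
  let ψ : FreeGroup ι →* Matrix (Fin r) (Fin r) ℂ :=
    (Units.coeHom _).comp ((MulAut.conj T).toMonoidHom.comp ρ)
  have hψ : ∀ w, ψ w = T.1 * (ρ w).1 * T⁻¹.1 := fun w => rfl
  have hmh : mh X' = ψ := by
    apply FreeGroup.ext_hom
    intro p
    rw [mh_of, hψ]
  refine ⟨X', (mem_YNone_iff R X').2 ⟨?_, ?_⟩, fun _ => rfl⟩
  · intro w hw
    rw [hmh, hψ, hR w hw, Units.val_one, mul_one, ← Units.val_mul, mul_inv_cancel, Units.val_one]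
  · rw [hmh]
    have h1 : Ssi ((Units.coeHom _).comp ρ) := ssi_of_diag _ H (by
      intro h hh
      obtain ⟨u, hu⟩ := hH h hh
      exact ⟨_, congrArg Units.val hu⟩)
    refine h1.conj (P := T.1) (Q := T⁻¹.1) ?_ ?_ (fun g => rfl)
    · rw [← Units.val_mul, mul_inv_cancel, Units.val_one]
    · rw [← Units.val_mul, inv_mul_cancel, Units.val_one]

theorem ev_lau {s : ℕ} (y : Fin s → ℂˣ) (i : Fin s) (b : Fin s → ℤ) :
    (fun c : ℂˣ => ((ev (Function.update y i c) b : ℂˣ) : ℂ)) ∈ Lau := by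
  have : (fun c : ℂˣ => ((ev (Function.update y i c) b : ℂˣ) : ℂ)) =
      ∏ j, fun c : ℂˣ => (((Function.update y i c j) ^ b j : ℂˣ) : ℂ) := by
    ext c
    rw [ev, Units.coe_prod, Finset.prod_apply]
  rw [this]
  refine Subalgebra.prod_mem _ fun j _ => ?_
  by_cases hj : j = i
  · subst hj
    simp only [Function.update_self]
    exact Lau_zpow _
  · simp only [Function.update_of_ne hj]
    exact Subalgebra.algebraMap_mem Lau (((y j) ^ b j : ℂˣ) : ℂ)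

theorem step [Fintype ι] [DecidableEq ι] (R : Set (FreeGroup ι)) (H : Subgroup (FreeGroup ι))
    [H.Normal] [H.FiniteIndex] {l : ℕ} (hl : l ≤ r) (lab : Fin r → Fin l)
    (hlab : Function.Surjective lab) (α : ι → Equiv.Perm (Fin l)) {s : ℕ}
    (e : (ι × Fin l → ℤ) →+ (Fin s → ℤ)) (k : ℕ) (g : Fin s → (ι × Fin l → ℤ)) (N : ℕ)
    (hN : N = (H.index ^ r * H.index).factorial)
    (hK : ∀ b ∈ AddSubgroup.closure (SS R N lab α), e b = 0)
    (hb : ∀ b, k • (b - ∑ i, e b i • g i) ∈ AddSubgroup.closure (SS R N lab α))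
    (M : ℕ) (hM2 : 2 ≤ M) (hmM : H.index ∣ M) (hkM : k ∣ M) (L : IntermediateField ℚ ℂ)
    (hU : (UU L M : Set ℂˣ).Infinite)
    (hfin : ∀ (G : Type) [Group G] [Finite G], Nat.card G ≤ M ^ r * H.index →
      ∀ σ : G →* Matrix (Fin r) (Fin r) ℂ, ∃ P Q : Matrix (Fin r) (Fin r) ℂ, P * Q = 1 ∧
        Q * P = 1 ∧ ∀ g i j, (Q * σ g * P) i j ∈ OI L)
    (X : ι → SpecialLinearGroup (Fin r) ℂ) (hXR : ∀ w ∈ R, mh X w = 1)
    (P : (Matrix (Fin r) (Fin r) ℂ)ˣ)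
    (σ : FreeGroup ι →* (Matrix (Fin r) (Fin r) ℂ)ˣ)
    (w : FreeGroup ι ⧸ H → (Matrix (Fin r) (Fin r) ℂ)ˣ)
    (hσ : ∀ γ, mh X γ = P.1 * (σ γ).1 * P⁻¹.1)
    (hco : ∀ γ u, σ γ * Dg lab u = Dg lab (fun x => u ((FreeGroup.lift α γ)⁻¹ x)) * σ γ)
    (hH : ∀ h ∈ H, ∃ u, σ h = Dg lab u) (hw : ∀ γ, ∃ t, σ γ = Dg lab t * w γ)
    (hΦ : ∀ M : ℕ, H.index ∣ M → ∃ Φ : Subgroup (Matrix (Fin r) (Fin r) ℂ)ˣ,
        ∀ g, g ∈ Φ ↔ ∃ u q, u ^ M = 1 ∧ g = Dg lab u * w q)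
    (F : MvPolynomial (ι × Fin r × Fin r) ℂ)
    (hF : ∀ X ∈ YNone R r, IsIntegralRep L X → value F X = 0) : value F X = 0 := by
  have hPP : P.1 * P⁻¹.1 = 1 := by rw [← Units.val_mul, mul_inv_cancel, Units.val_one]
  have hPP' : P⁻¹.1 * P.1 = 1 := by rw [← Units.val_mul, inv_mul_cancel, Units.val_one]
  have hσ' : ∀ γ, (σ γ).1 = P⁻¹.1 * mh X γ * P.1 := by
    intro γ
    rw [hσ]
    calc (σ γ).1 = (P⁻¹.1 * P.1) * (σ γ).1 * (P⁻¹.1 * P.1) := by rw [hPP', one_mul, mul_one]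
      _ = _ := by simp only [mul_assoc]
  have hm0 : 0 < H.index := Nat.pos_of_ne_zero Subgroup.FiniteIndex.index_ne_zero
  have hN0 : 0 < N := hN ▸ Nat.factorial_pos _
  -- step 1
  choose t ht using fun p : ι => hw (FreeGroup.of p)
  let φ : ι → (Matrix (Fin r) (Fin r) ℂ)ˣ := fun p => w (FreeGroup.of p : FreeGroup ι)
  have ht' : ∀ p, σ (FreeGroup.of p) = Dg lab (t p) * φ p := ht
  let t' : ι × Fin l → ℂˣ := fun q => t q.1 q.2
  let τ₀ : FreeGroup ι →* (Matrix (Fin r) (Fin r) ℂ)ˣ := FreeGroup.lift φ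
  have hφco : ∀ p u, φ p * Dg lab u = Dg lab (fun x => u ((α p)⁻¹ x)) * φ p := by
    intro p u
    have h1 : φ p = (Dg lab (t p))⁻¹ * σ (FreeGroup.of p) := by rw [ht']; group
    have h2 := hco (FreeGroup.of p) u
    rw [FreeGroup.lift_apply_of] at h2
    rw [h1, mul_assoc, h2, ← mul_assoc, ← mul_assoc, ← map_inv, ← map_mul, ← map_mul,
      mul_comm (t p)⁻¹]
  have hτ₀co := comm_lift (Dg lab) α φ hφco
  have hσe : ∀ γ, σ γ = Dg lab (fun x => ev t' (bb α γ x)) * τ₀ γ := by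
    intro γ
    rw [← word_eval (Dg lab) α τ₀ hτ₀co t' γ]
    have : σ = FreeGroup.lift (fun p => Dg lab (fun x => t' (p, x)) * τ₀ (FreeGroup.of p)) := by
      apply FreeGroup.ext_hom
      intro p
      rw [FreeGroup.lift_apply_of, ht', FreeGroup.lift_apply_of]
    rw [this]
  -- the first finite group
  obtain ⟨Φm, hΦm⟩ := hΦ H.index dvd_rfl
  obtain ⟨hfm, hcm⟩ := card_phi hm0 (Dg lab) w Φm hΦm
  have hφm : ∀ p, φ p ∈ Φm := fun p => (hΦm _).2 ⟨1, _, one_pow _, by rw [map_one, one_mul]⟩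
  have hQcard : Nat.card (FreeGroup ι ⧸ H) = H.index := rfl
  have hpowN : ∀ x ∈ Φm, x ^ N = 1 := by
    intro x hx
    have h1 : Nat.card Φm ∣ N := by
      rw [hN]
      refine Nat.dvd_factorial Nat.card_pos (hcm.trans ?_)
      rw [hQcard]
      exact Nat.mul_le_mul_right _ (Nat.pow_le_pow_right hm0 hl)
    obtain ⟨c, hc⟩ := h1
    have h2 : (⟨x, hx⟩ : Φm) ^ N = 1 := by rw [hc, pow_mul, pow_card_eq_one', one_pow]
    exact congrArg Subtype.val h2
  -- the character kills `SS`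
  have hdetσ : ∀ p, (σ (FreeGroup.of p)).1.det = 1 := by
    intro p
    rw [hσ', mh_of, Matrix.det_mul, Matrix.det_mul, (X p).2, mul_one, ← Matrix.det_mul, hPP',
      Matrix.det_one]
  have hS : ∀ c ∈ SS R N lab α, ev t' c = 1 := by
    rintro c (⟨γ, hγ, x, rfl⟩ | ⟨p, rfl⟩)
    · have h1 : σ γ = 1 := by
        apply Units.ext
        rw [hσ', hXR γ hγ, mul_one, hPP', Units.val_one]
      have h2 := hσe γ
      rw [h1] at h2
      have h3 : Dg lab (fun x => ev t' (bb α γ x)) = (τ₀ γ)⁻¹ := eq_inv_of_mul_eq_one_left h2.symm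
      have h4 : Dg lab ((fun x => ev t' (bb α γ x)) ^ N) = Dg lab 1 := by
        rw [map_pow, h3, map_one]
        exact hpowN _ (Φm.inv_mem (lift_mem Φm φ hφm γ))
      have h5 := congrFun (Dg_inj lab hlab h4) x
      rw [ev_nsmul]
      exact h5
    · rw [ev_nsmul, ev_sum]
      have h1 : ∀ i, ev t' (Pi.single (p, lab i) 1) = t p (lab i) := fun i => ev_single _ _
      simp_rw [h1]
      apply Units.ext
      rw [Units.val_pow_eq_pow_val, ← det_Dg, Units.val_one]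
      have h2 := congrArg (fun a : (Matrix (Fin r) (Fin r) ℂ)ˣ => a.1.det) (ht' p)
      simp only [Units.val_mul, Matrix.det_mul] at h2
      rw [hdetσ] at h2
      have h3 : (φ p).1.det ^ N = 1 := by
        rw [← Matrix.det_pow, ← Units.val_pow_eq_pow_val, hpowN _ (hφm p), Units.val_one,
          Matrix.det_one]
      calc (Dg lab (t p)).1.det ^ N = ((Dg lab (t p)).1.det * (φ p).1.det) ^ N := by
            rw [mul_pow, h3, mul_one]
        _ = 1 := by rw [← h2, one_pow]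
  have hcl : ∀ b ∈ AddSubgroup.closure (SS R N lab α), ev t' b = 1 := by
    intro b hb
    induction hb using AddSubgroup.closure_induction with
    | mem x hx => exact hS x hx
    | zero => exact ev_zero _
    | add x y _ _ hx hy => rw [ev_add, hx, hy, one_mul]
    | neg x _ hx => rw [ev_neg, hx, inv_one]
  -- the free part and the torsion part
  let y₀ : Fin s → ℂˣ := fun i => ev t' (g i)
  let t₀ : ι × Fin l → ℂˣ := fun q => t' q * (ev y₀ (e (Pi.single q 1)))⁻¹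
  have ht₀ : ∀ q, t₀ q ^ M = 1 := by
    intro q
    obtain ⟨c, rfl⟩ := hkM
    have h1 := hcl _ (hb (Pi.single q 1))
    rw [ev_nsmul, ev_sub, ev_single, ev_sum] at h1
    have h2 : ev y₀ (e (Pi.single q 1)) = ∏ i, ev t' (e (Pi.single q 1) i • g i) :=
      Finset.prod_congr rfl fun i _ => (ev_zsmul _ _ _).symm
    change (t' q * (ev y₀ (e (Pi.single q 1)))⁻¹) ^ (k * c) = 1
    rw [h2, pow_mul, h1, one_pow]
  let τ : ι → (Matrix (Fin r) (Fin r) ℂ)ˣ := fun p => Dg lab (fun x => t₀ (p, x)) * φ p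
  obtain ⟨Φ, hΦM⟩ := hΦ M hmM
  obtain ⟨hfM, hcM⟩ := card_phi (by omega) (Dg lab) w Φ hΦM
  have hτΦ : ∀ p, τ p ∈ Φ := fun p => (hΦM _).2 ⟨fun x => t₀ (p, x), _, by
    funext x
    exact ht₀ (p, x), rfl⟩
  have hΦu : ∀ u : Fin l → ℂˣ, u ^ M = 1 → Dg lab u ∈ Φ := by
    intro u hu
    obtain ⟨u₁, q₁, hu₁, h1⟩ := (hΦM 1).1 Φ.one_mem
    refine (hΦM _).2 ⟨u * u₁, q₁, by rw [mul_pow, hu, hu₁, one_mul], ?_⟩
    rw [map_mul, mul_assoc, ← h1, mul_one]
  obtain ⟨P₁, Q₁, hPQ, hQP, hint₀⟩ := hfin Φ (hcM.trans (by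
    rw [hQcard]
    exact Nat.mul_le_mul_right _ (Nat.pow_le_pow_right (by omega) hl)))
    ((Units.coeHom _).comp Φ.subtype)
  have hint : ∀ x ∈ Φ, IM L (Q₁ * x.1 * P₁) := fun x hx => hint₀ ⟨x, hx⟩
  -- the family
  have hτco : ∀ p u, τ p * Dg lab u = Dg lab (fun x => u ((α p)⁻¹ x)) * τ p := by
    intro p u
    change Dg lab _ * φ p * _ = _ * (Dg lab _ * φ p)
    rw [mul_assoc, hφco, ← mul_assoc, ← mul_assoc, ← map_mul, ← map_mul, mul_comm (fun x => t₀ _)]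
  let τ' : FreeGroup ι →* (Matrix (Fin r) (Fin r) ℂ)ˣ := FreeGroup.lift τ
  have hτ'co := comm_lift (Dg lab) α τ hτco
  let ρ : (Fin s → ℂˣ) → FreeGroup ι →* (Matrix (Fin r) (Fin r) ℂ)ˣ := fun y =>
    FreeGroup.lift (fun p => Dg lab (fun x => ev y (e (Pi.single (p, x) 1))) *
      τ' (FreeGroup.of p))
  have hρe : ∀ y γ, ρ y γ = Dg lab (fun x => ev y (e (bb α γ x))) * τ' γ := by
    intro y γ
    have := word_eval (Dg lab) α τ' hτ'co (fun q => ev y (e (Pi.single q 1))) γ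
    simp only [ev_comp] at this
    exact this
  have hρof : ∀ y p, ρ y (FreeGroup.of p) =
      Dg lab (fun x => ev y (e (Pi.single (p, x) 1))) * τ p := by
    intro y p
    change FreeGroup.lift _ _ = _
    rw [FreeGroup.lift_apply_of]
    congr 1
    exact FreeGroup.lift_apply_of
  have hρ₀ : ρ y₀ = σ := by
    apply FreeGroup.ext_hom
    intro p
    rw [hρof, ht']
    change Dg lab _ * (Dg lab _ * φ p) = _
    rw [← mul_assoc, ← map_mul]
    congr 2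
    funext x
    change ev y₀ (e (Pi.single (p, x) 1)) * (t' (p, x) * (ev y₀ (e (Pi.single (p, x) 1)))⁻¹) = _
    rw [mul_comm, mul_assoc, inv_mul_cancel, mul_one]
  have hez : ∀ b : ι × Fin l → ℤ, N • b ∈ SS R N lab α → e b = 0 := by
    intro b hb
    have h1 := hK _ (AddSubgroup.subset_closure hb)
    rw [map_nsmul] at h1
    exact (smul_eq_zero.1 h1).resolve_left hN0.ne'
  have hρR : ∀ y, ∀ γ ∈ R, ρ y γ = 1 := by
    intro y γ hγ
    have h1 : ∀ y, ρ y γ = τ' γ := by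
      intro y
      rw [hρe]
      have : (fun x => ev y (e (bb α γ x))) = 1 := by
        funext x
        rw [hez _ (Or.inl ⟨γ, hγ, x, rfl⟩), ev_zero]
        rfl
      rw [this, map_one, one_mul]
    rw [h1, ← h1 y₀, hρ₀]
    apply Units.ext
    rw [hσ', hXR γ hγ, mul_one, hPP', Units.val_one]
  have hρH : ∀ y, ∀ h ∈ H, ∃ u, ρ y h = Dg lab u := by
    intro y h hh
    obtain ⟨u, hu⟩ := hH h hh
    rw [← hρ₀, hρe] at hu
    refine ⟨(fun x => ev y (e (bb α h x))) * ((fun x => ev y₀ (e (bb α h x)))⁻¹ * u), ?_⟩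
    rw [map_mul, map_mul, ← hu, hρe, map_inv]
    group
  have hρdet : ∀ y p, (ρ y (FreeGroup.of p)).1.det = 1 := by
    intro y p
    have h1 : ∀ y, (ρ y (FreeGroup.of p)).1.det = (τ p).1.det := by
      intro y
      rw [hρof, Units.val_mul, Matrix.det_mul, det_Dg, ← ev_sum, ← map_sum,
        hez _ (Or.inr ⟨p, rfl⟩), ev_zero, Units.val_one, one_mul]
    rw [h1, ← h1 y₀, hρ₀, hdetσ]
  -- density
  let Z : (Fin s → ℂˣ) → ι → Matrix (Fin r) (Fin r) ℂ := fun y p =>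
    Q₁ * (ρ y (FreeGroup.of p)).1 * P₁
  have hdens := dens Z (by
    intro y i p a b
    have h1 : (fun c : ℂˣ => Z (Function.update y i c) p a b) = ∑ j,
        (algebraMap ℂ (ℂˣ → ℂ) (Q₁ a j)) *
        (fun c : ℂˣ => ((ev (Function.update y i c) (e (Pi.single (p, lab j) 1)) : ℂˣ) : ℂ)) *
        (algebraMap ℂ (ℂˣ → ℂ) (((τ p).1 * P₁) j b)) := by
      ext c
      have h2 : Z (Function.update y i c) p = Q₁ *
          (Dg lab (fun x => ev (Function.update y i c) (e (Pi.single (p, x) 1)))).1 *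
          ((τ p).1 * P₁) := by
        change Q₁ * (ρ (Function.update y i c) (FreeGroup.of p)).1 * P₁ = _
        rw [hρof, Units.val_mul]
        simp only [mul_assoc]
      rw [h2, Matrix.mul_apply, Finset.sum_apply]
      refine Finset.sum_congr rfl fun j _ => ?_
      rw [Dg_val, Matrix.mul_diagonal]
      rfl
    rw [h1]
    refine Subalgebra.sum_mem _ fun j _ => ?_
    exact Subalgebra.mul_mem _ (Subalgebra.mul_mem _ (Subalgebra.algebraMap_mem _ _)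
      (ev_lau _ _ _)) (Subalgebra.algebraMap_mem _ _)) (UU L M) hU F (by
    intro S y hy
    have hSS : S.1.map (Int.castRingHom ℂ) * S⁻¹.1.map (Int.castRingHom ℂ) = 1 := by
      rw [← Matrix.map_mul]
      have : S.1 * S⁻¹.1 = 1 := congrArg Subtype.val (mul_inv_cancel S)
      rw [this]
      exact Matrix.map_one _ (map_zero _) (map_one _)
    have hSS' : S⁻¹.1.map (Int.castRingHom ℂ) * S.1.map (Int.castRingHom ℂ) = 1 := by
      rw [← Matrix.map_mul]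
      have : S⁻¹.1 * S.1 = 1 := congrArg Subtype.val (inv_mul_cancel S)
      rw [this]
      exact Matrix.map_one _ (map_zero _) (map_one _)
    let T : (Matrix (Fin r) (Fin r) ℂ)ˣ :=
      ⟨S.1.map (Int.castRingHom ℂ), S⁻¹.1.map (Int.castRingHom ℂ), hSS, hSS'⟩ * ⟨Q₁, P₁, hQP, hPQ⟩
    have hT1 : T.1 = S.1.map (Int.castRingHom ℂ) * Q₁ := rfl
    have hT2 : T⁻¹.1 = P₁ * S⁻¹.1.map (Int.castRingHom ℂ) := by
      change (_ * _ : (Matrix (Fin r) (Fin r) ℂ)ˣ)⁻¹.1 = _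
      rw [_root_.mul_inv_rev, Units.val_mul]
      rfl
    obtain ⟨X', hX', hX'e⟩ := fam_mem R H lab (ρ y) (hρR y) (hρH y) (hρdet y) T
    have hX'Z : ∀ p, (X' p).1 =
        S.1.map (Int.castRingHom ℂ) * Z y p * S⁻¹.1.map (Int.castRingHom ℂ) := by
      intro p
      rw [hX'e, hT1, hT2]
      change _ = _ * (Q₁ * (ρ y (FreeGroup.of p)).1 * P₁) * _
      simp only [mul_assoc]
    have hev : ∀ b : Fin s → ℤ, ev y b ∈ UU L M := fun b =>
      (UU L M).prod_mem fun i _ => (UU L M).zpow_mem (hy i) _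
    have hint' : IsIntegralRep L X' := by
      intro p i j
      rw [← mem_OI_iff, hX'Z]
      refine (((IM.int S.1).mul ?_).mul (IM.int S⁻¹.1)) i j
      have h2 : Z y p = (Q₁ * (Dg lab (fun x => ev y (e (Pi.single (p, x) 1)))).1 * P₁) *
          (Q₁ * (τ p).1 * P₁) := by
        change Q₁ * (ρ y (FreeGroup.of p)).1 * P₁ = _
        rw [hρof, Units.val_mul]
        calc Q₁ * ((Dg lab (fun x => ev y (e (Pi.single (p, x) 1)))).1 * (τ p).1) * P₁
            = Q₁ * (Dg lab (fun x => ev y (e (Pi.single (p, x) 1)))).1 * (P₁ * Q₁) *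
              (τ p).1 * P₁ := by rw [hPQ, mul_one]; simp only [mul_assoc]
          _ = _ := by simp only [mul_assoc]
      rw [h2]
      refine IM.mul ?_ (hint _ (hτΦ p))
      exact int_D hM2 lab Φ hΦu P₁ Q₁ hQP hint _ (fun x => (hev _).1)
    have := hF X' hX' hint'
    rw [value_eq] at this
    simp only [hX'Z] at this
    exact this) (P * ⟨P₁, Q₁, hPQ, hQP⟩) y₀
  rw [value_eq, ← hdens]
  congr 2
  ext q
  have h1 : (P * ⟨P₁, Q₁, hPQ, hQP⟩ : (Matrix (Fin r) (Fin r) ℂ)ˣ).1 = P.1 * P₁ := rfl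
  have h2 : ((P * ⟨P₁, Q₁, hPQ, hQP⟩ : (Matrix (Fin r) (Fin r) ℂ)ˣ)⁻¹).1 = Q₁ * P⁻¹.1 := by
    rw [_root_.mul_inv_rev, Units.val_mul]
    rfl
  rw [h1, h2]
  change _ = (P.1 * P₁ * (Q₁ * (ρ y₀ (FreeGroup.of q.1)).1 * P₁) * (Q₁ * P⁻¹.1)) q.2.1 q.2.2
  rw [hρ₀, ← mh_of, hσ]
  have h3 : P.1 * (σ (FreeGroup.of q.1)).1 * P⁻¹.1 =
      P.1 * P₁ * (Q₁ * (σ (FreeGroup.of q.1)).1 * P₁) * (Q₁ * P⁻¹.1) := by
    have h4 : P.1 * (σ (FreeGroup.of q.1)).1 * P⁻¹.1 =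
        P.1 * (P₁ * Q₁) * (σ (FreeGroup.of q.1)).1 * (P₁ * Q₁) * P⁻¹.1 := by
      rw [hPQ, mul_one, mul_one]
    rw [h4]
    simp only [mul_assoc]
  rw [h3]

end Vale.Agent.P002.H306
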