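import Mathlib

/-!
# Quotients of `ℤ^J`, and the universal cocycle of a permutation representation of a free group
-/

namespace Vale.Agent.P002.H306

/-- A subgroup of `ℤ^J` is killed by a homomorphism to `ℤ^s` which splits up to torsion. -/
theorem struct {J : Type} [Finite J] (K : AddSubgroup (J → ℤ)) :
    ∃ (s : ℕ) (e : (J → ℤ) →+ (Fin s → ℤ)) (k : ℕ) (g : Fin s → (J → ℤ)), 0 < k ∧
      (∀ b ∈ K, e b = 0) ∧ ∀ b, k • (b - ∑ i, e b i • g i) ∈ K := by
  classical
  have := Fintype.ofFinite J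
  let K' : Submodule ℤ (J → ℤ) := AddSubgroup.toIntSubmodule K
  let N := (J → ℤ) ⧸ K'
  let N' := N ⧸ Submodule.torsion ℤ N
  obtain ⟨s, ⟨β⟩⟩ : ∃ s : ℕ, Nonempty (Module.Basis (Fin s) ℤ N') :=
    ⟨_, ⟨Module.finBasis ℤ N'⟩⟩
  let f : (J → ℤ) →ₗ[ℤ] N' := (Submodule.torsion ℤ N).mkQ ∘ₗ K'.mkQ
  have hf : Function.Surjective f := (Submodule.mkQ_surjective _).comp (Submodule.mkQ_surjective _)
  let e : (J → ℤ) →ₗ[ℤ] (Fin s → ℤ) := β.equivFun.toLinearMap ∘ₗ f
  choose g hg using fun i => hf (β i)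
  have hK : ∀ b ∈ K, e b = 0 := by
    intro b hb
    have : K'.mkQ b = 0 := (Submodule.Quotient.mk_eq_zero _).2 hb
    change β.equivFun ((Submodule.torsion ℤ N).mkQ (K'.mkQ b)) = 0
    rw [this, map_zero, map_zero]
  let π : (J → ℤ) →ₗ[ℤ] (J → ℤ) :=
    { toFun := fun b => b - ∑ i, e b i • g i
      map_add' := by
        intro a b
        simp only [map_add, Pi.add_apply, add_smul, Finset.sum_add_distrib]
        abel
      map_smul' := by
        intro c b
        simp only [map_smul, Pi.smul_apply, smul_eq_mul, mul_smul, ← Finset.smul_sum,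
          RingHom.id_apply, smul_sub] }
  have hπ : ∀ b, f (π b) = 0 := by
    intro b
    change f (b - ∑ i, e b i • g i) = 0
    rw [map_sub, map_sum]
    simp only [map_smul, hg]
    change f b - ∑ i, β.equivFun (f b) i • β i = 0
    rw [β.sum_equivFun, sub_self]
  have htor : ∀ b, ∃ k : ℕ, 0 < k ∧ k • π b ∈ K := by
    intro b
    have h1 : K'.mkQ (π b) ∈ Submodule.torsion ℤ N := (Submodule.Quotient.mk_eq_zero _).1 (hπ b)
    obtain ⟨a, ha⟩ := (Submodule.mem_torsion_iff _).1 h1
    have ha0 : (a : ℤ) ≠ 0 := nonZeroDivisors.coe_ne_zero a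
    refine ⟨(a : ℤ).natAbs, Int.natAbs_pos.2 ha0, ?_⟩
    have h2 : (a : ℤ) • π b ∈ K := by
      have : K'.mkQ ((a : ℤ) • π b) = 0 := by
        rw [map_smul]
        exact ha
      exact (Submodule.Quotient.mk_eq_zero _).1 this
    rcases Int.natAbs_eq (a : ℤ) with h | h
    · rw [h] at h2
      simpa using h2
    · rw [h] at h2
      have := K.neg_mem h2
      simpa using this
  choose k hk0 hk using fun j : J => htor (Pi.single j 1)
  refine ⟨s, e.toAddMonoidHom, ∏ j, k j, g, Finset.prod_pos fun j _ => hk0 j, hK, ?_⟩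
  intro b
  change (∏ j, k j) • π b ∈ K
  have h1 : π b = ∑ j, b j • π (Pi.single j 1) := by
    conv_lhs => rw [← Finset.univ_sum_single b]
    rw [map_sum]
    refine Finset.sum_congr rfl fun j _ => ?_
    rw [← map_smul]
    congr 1
    ext i
    simp [Pi.single_apply]
  rw [h1, Finset.smul_sum]
  refine K.sum_mem fun j _ => ?_
  rw [smul_comm]
  refine K.zsmul_mem ?_ _
  rw [← Finset.prod_erase_mul _ _ (Finset.mem_univ j), mul_smul]
  exact K.nsmul_mem (hk j) _

end Vale.Agent.P002.H306
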